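import Vale.Agent.P355.H41.L5.D
import Vale.Agent.P355.H41.F1.Rg

namespace Vale.Agent.P355.H41.L5

open Vale.Agent.P355 Vale.Agent.P355.H147 Vale.Agent.P355.H998.E Vale.Agent.P355.H41.F1

theorem r0_0 : RW 5 3 3 D cls mv 0 0 (Nat.add 0 10) := RW.ck 0 0 10 (by decide +kernel)

theorem r0_10 : RW 5 3 3 D cls mv 0 10 (Nat.add 10 10) := RW.ck 0 10 10 (by decide +kernel)

theorem r0_20 : RW 5 3 3 D cls mv 0 20 (Nat.add 20 10) := RW.ck 0 20 10 (by decide +kernel)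

theorem r0_30 : RW 5 3 3 D cls mv 0 30 (Nat.add 30 10) := RW.ck 0 30 10 (by decide +kernel)

theorem r0_40 : RW 5 3 3 D cls mv 0 40 (Nat.add 40 10) := RW.ck 0 40 10 (by decide +kernel)

theorem r0_50 : RW 5 3 3 D cls mv 0 50 (Nat.add 50 10) := RW.ck 0 50 10 (by decide +kernel)

theorem r0_60 : RW 5 3 3 D cls mv 0 60 (Nat.add 60 10) := RW.ck 0 60 10 (by decide +kernel)

theorem r0_70 : RW 5 3 3 D cls mv 0 70 (Nat.add 70 10) := RW.ck 0 70 10 (by decide +kernel)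

theorem r0_80 : RW 5 3 3 D cls mv 0 80 (Nat.add 80 10) := RW.ck 0 80 10 (by decide +kernel)

theorem r0_90 : RW 5 3 3 D cls mv 0 90 (Nat.add 90 10) := RW.ck 0 90 10 (by decide +kernel)

theorem r0_100 : RW 5 3 3 D cls mv 0 100 (Nat.add 100 10) := RW.ck 0 100 10 (by decide +kernel)

theorem r0_110 : RW 5 3 3 D cls mv 0 110 (Nat.add 110 10) := RW.ck 0 110 10 (by decide +kernel)

theorem r0_120 : RW 5 3 3 D cls mv 0 120 (Nat.add 120 2) := RW.ck 0 120 2 (by decide +kernel)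

theorem c0 : CR 5 3 3 D cls mv 122 0 (Nat.succ 0) := CR.one 0 ((((r0_0).trans ((r0_10).trans (r0_20))).trans ((r0_30).trans ((r0_40).trans (r0_50)))).trans (((r0_60).trans ((r0_70).trans (r0_80))).trans (((r0_90).trans (r0_100)).trans ((r0_110).trans (r0_120)))))

theorem cm0 : CR 5 3 3 D cls mv 122 0 1 := c0

end Vale.Agent.P355.H41.L5
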