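import Vale.Agent.P355.H41.L5.D
import Vale.Agent.P355.H41.F1.Rg

namespace Vale.Agent.P355.H41.L5

open Vale.Agent.P355 Vale.Agent.P355.H147 Vale.Agent.P355.H998.E Vale.Agent.P355.H41.F1

theorem r1_1 : RW 5 3 3 D cls mv 1 1 (Nat.add 1 10) := RW.ck 1 1 10 (by decide +kernel)

theorem r1_11 : RW 5 3 3 D cls mv 1 11 (Nat.add 11 10) := RW.ck 1 11 10 (by decide +kernel)

theorem r1_21 : RW 5 3 3 D cls mv 1 21 (Nat.add 21 10) := RW.ck 1 21 10 (by decide +kernel)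

theorem r1_31 : RW 5 3 3 D cls mv 1 31 (Nat.add 31 10) := RW.ck 1 31 10 (by decide +kernel)

theorem r1_41 : RW 5 3 3 D cls mv 1 41 (Nat.add 41 10) := RW.ck 1 41 10 (by decide +kernel)

theorem r1_51 : RW 5 3 3 D cls mv 1 51 (Nat.add 51 10) := RW.ck 1 51 10 (by decide +kernel)

theorem r1_61 : RW 5 3 3 D cls mv 1 61 (Nat.add 61 10) := RW.ck 1 61 10 (by decide +kernel)

theorem r1_71 : RW 5 3 3 D cls mv 1 71 (Nat.add 71 10) := RW.ck 1 71 10 (by decide +kernel)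

theorem r1_81 : RW 5 3 3 D cls mv 1 81 (Nat.add 81 10) := RW.ck 1 81 10 (by decide +kernel)

theorem r1_91 : RW 5 3 3 D cls mv 1 91 (Nat.add 91 10) := RW.ck 1 91 10 (by decide +kernel)

theorem r1_101 : RW 5 3 3 D cls mv 1 101 (Nat.add 101 10) := RW.ck 1 101 10 (by decide +kernel)

theorem r1_111 : RW 5 3 3 D cls mv 1 111 (Nat.add 111 10) := RW.ck 1 111 10 (by decide +kernel)

theorem r1_121 : RW 5 3 3 D cls mv 1 121 (Nat.add 121 1) := RW.ck 1 121 1 (by decide +kernel)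

theorem c1 : CR 5 3 3 D cls mv 122 1 (Nat.succ 1) := CR.one 1 ((((r1_1).trans ((r1_11).trans (r1_21))).trans ((r1_31).trans ((r1_41).trans (r1_51)))).trans (((r1_61).trans ((r1_71).trans (r1_81))).trans (((r1_91).trans (r1_101)).trans ((r1_111).trans (r1_121)))))

theorem cm1 : CR 5 3 3 D cls mv 122 1 2 := c1

end Vale.Agent.P355.H41.L5
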