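import Vale.Agent.P355.H41.L5.D
import Vale.Agent.P355.H41.F1.Rg

namespace Vale.Agent.P355.H41.L5

open Vale.Agent.P355 Vale.Agent.P355.H147 Vale.Agent.P355.H998.E Vale.Agent.P355.H41.F1

theorem r10_10 : RW 5 3 3 D cls mv 10 10 (Nat.add 10 10) := RW.ck 10 10 10 (by decide +kernel)

theorem r10_20 : RW 5 3 3 D cls mv 10 20 (Nat.add 20 10) := RW.ck 10 20 10 (by decide +kernel)

theorem r10_30 : RW 5 3 3 D cls mv 10 30 (Nat.add 30 10) := RW.ck 10 30 10 (by decide +kernel)

theorem r10_40 : RW 5 3 3 D cls mv 10 40 (Nat.add 40 10) := RW.ck 10 40 10 (by decide +kernel)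

theorem r10_50 : RW 5 3 3 D cls mv 10 50 (Nat.add 50 10) := RW.ck 10 50 10 (by decide +kernel)

theorem r10_60 : RW 5 3 3 D cls mv 10 60 (Nat.add 60 10) := RW.ck 10 60 10 (by decide +kernel)

theorem r10_70 : RW 5 3 3 D cls mv 10 70 (Nat.add 70 10) := RW.ck 10 70 10 (by decide +kernel)

theorem r10_80 : RW 5 3 3 D cls mv 10 80 (Nat.add 80 10) := RW.ck 10 80 10 (by decide +kernel)

theorem r10_90 : RW 5 3 3 D cls mv 10 90 (Nat.add 90 10) := RW.ck 10 90 10 (by decide +kernel)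

theorem r10_100 : RW 5 3 3 D cls mv 10 100 (Nat.add 100 10) := RW.ck 10 100 10 (by decide +kernel)

theorem r10_110 : RW 5 3 3 D cls mv 10 110 (Nat.add 110 10) := RW.ck 10 110 10 (by decide +kernel)

theorem r10_120 : RW 5 3 3 D cls mv 10 120 (Nat.add 120 2) := RW.ck 10 120 2 (by decide +kernel)

theorem c10 : CR 5 3 3 D cls mv 122 10 (Nat.succ 10) := CR.one 10 ((((r10_10).trans ((r10_20).trans (r10_30))).trans ((r10_40).trans ((r10_50).trans (r10_60)))).trans (((r10_70).trans ((r10_80).trans (r10_90))).trans ((r10_100).trans ((r10_110).trans (r10_120)))))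

theorem cm10 : CR 5 3 3 D cls mv 122 10 11 := c10

end Vale.Agent.P355.H41.L5
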