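import Vale.Agent.P355.H41.L5.D
import Vale.Agent.P355.H41.F1.Rg

namespace Vale.Agent.P355.H41.L5

open Vale.Agent.P355 Vale.Agent.P355.H147 Vale.Agent.P355.H998.E Vale.Agent.P355.H41.F1

theorem r11_11 : RW 5 3 3 D cls mv 11 11 (Nat.add 11 10) := RW.ck 11 11 10 (by decide +kernel)

theorem r11_21 : RW 5 3 3 D cls mv 11 21 (Nat.add 21 10) := RW.ck 11 21 10 (by decide +kernel)

theorem r11_31 : RW 5 3 3 D cls mv 11 31 (Nat.add 31 10) := RW.ck 11 31 10 (by decide +kernel)

theorem r11_41 : RW 5 3 3 D cls mv 11 41 (Nat.add 41 10) := RW.ck 11 41 10 (by decide +kernel)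

theorem r11_51 : RW 5 3 3 D cls mv 11 51 (Nat.add 51 10) := RW.ck 11 51 10 (by decide +kernel)

theorem r11_61 : RW 5 3 3 D cls mv 11 61 (Nat.add 61 10) := RW.ck 11 61 10 (by decide +kernel)

theorem r11_71 : RW 5 3 3 D cls mv 11 71 (Nat.add 71 10) := RW.ck 11 71 10 (by decide +kernel)

theorem r11_81 : RW 5 3 3 D cls mv 11 81 (Nat.add 81 10) := RW.ck 11 81 10 (by decide +kernel)

theorem r11_91 : RW 5 3 3 D cls mv 11 91 (Nat.add 91 10) := RW.ck 11 91 10 (by decide +kernel)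

theorem r11_101 : RW 5 3 3 D cls mv 11 101 (Nat.add 101 10) := RW.ck 11 101 10 (by decide +kernel)

theorem r11_111 : RW 5 3 3 D cls mv 11 111 (Nat.add 111 10) := RW.ck 11 111 10 (by decide +kernel)

theorem r11_121 : RW 5 3 3 D cls mv 11 121 (Nat.add 121 1) := RW.ck 11 121 1 (by decide +kernel)

theorem c11 : CR 5 3 3 D cls mv 122 11 (Nat.succ 11) := CR.one 11 ((((r11_11).trans ((r11_21).trans (r11_31))).trans ((r11_41).trans ((r11_51).trans (r11_61)))).trans (((r11_71).trans ((r11_81).trans (r11_91))).trans ((r11_101).trans ((r11_111).trans (r11_121)))))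

theorem cm11 : CR 5 3 3 D cls mv 122 11 12 := c11

end Vale.Agent.P355.H41.L5
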