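import Vale.Agent.P355.H41.L5.D
import Vale.Agent.P355.H41.F1.Rg

namespace Vale.Agent.P355.H41.L5

open Vale.Agent.P355 Vale.Agent.P355.H147 Vale.Agent.P355.H998.E Vale.Agent.P355.H41.F1

theorem r12_12 : RW 5 3 3 D cls mv 12 12 (Nat.add 12 10) := RW.ck 12 12 10 (by decide +kernel)

theorem r12_22 : RW 5 3 3 D cls mv 12 22 (Nat.add 22 10) := RW.ck 12 22 10 (by decide +kernel)

theorem r12_32 : RW 5 3 3 D cls mv 12 32 (Nat.add 32 10) := RW.ck 12 32 10 (by decide +kernel)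

theorem r12_42 : RW 5 3 3 D cls mv 12 42 (Nat.add 42 10) := RW.ck 12 42 10 (by decide +kernel)

theorem r12_52 : RW 5 3 3 D cls mv 12 52 (Nat.add 52 10) := RW.ck 12 52 10 (by decide +kernel)

theorem r12_62 : RW 5 3 3 D cls mv 12 62 (Nat.add 62 10) := RW.ck 12 62 10 (by decide +kernel)

theorem r12_72 : RW 5 3 3 D cls mv 12 72 (Nat.add 72 10) := RW.ck 12 72 10 (by decide +kernel)

theorem r12_82 : RW 5 3 3 D cls mv 12 82 (Nat.add 82 10) := RW.ck 12 82 10 (by decide +kernel)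

theorem r12_92 : RW 5 3 3 D cls mv 12 92 (Nat.add 92 10) := RW.ck 12 92 10 (by decide +kernel)

theorem r12_102 : RW 5 3 3 D cls mv 12 102 (Nat.add 102 10) := RW.ck 12 102 10 (by decide +kernel)

theorem r12_112 : RW 5 3 3 D cls mv 12 112 (Nat.add 112 10) := RW.ck 12 112 10 (by decide +kernel)

theorem c12 : CR 5 3 3 D cls mv 122 12 (Nat.succ 12) := CR.one 12 ((((r12_12).trans (r12_22)).trans ((r12_32).trans ((r12_42).trans (r12_52)))).trans (((r12_62).trans ((r12_72).trans (r12_82))).trans ((r12_92).trans ((r12_102).trans (r12_112)))))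

theorem cm12 : CR 5 3 3 D cls mv 122 12 13 := c12

end Vale.Agent.P355.H41.L5
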