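import Vale.Agent.P355.H41.L5.D
import Vale.Agent.P355.H41.F1.Rg

namespace Vale.Agent.P355.H41.L5

open Vale.Agent.P355 Vale.Agent.P355.H147 Vale.Agent.P355.H998.E Vale.Agent.P355.H41.F1

theorem r13_13 : RW 5 3 3 D cls mv 13 13 (Nat.add 13 10) := RW.ck 13 13 10 (by decide +kernel)

theorem r13_23 : RW 5 3 3 D cls mv 13 23 (Nat.add 23 10) := RW.ck 13 23 10 (by decide +kernel)

theorem r13_33 : RW 5 3 3 D cls mv 13 33 (Nat.add 33 10) := RW.ck 13 33 10 (by decide +kernel)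

theorem r13_43 : RW 5 3 3 D cls mv 13 43 (Nat.add 43 10) := RW.ck 13 43 10 (by decide +kernel)

theorem r13_53 : RW 5 3 3 D cls mv 13 53 (Nat.add 53 10) := RW.ck 13 53 10 (by decide +kernel)

theorem r13_63 : RW 5 3 3 D cls mv 13 63 (Nat.add 63 10) := RW.ck 13 63 10 (by decide +kernel)

theorem r13_73 : RW 5 3 3 D cls mv 13 73 (Nat.add 73 10) := RW.ck 13 73 10 (by decide +kernel)

theorem r13_83 : RW 5 3 3 D cls mv 13 83 (Nat.add 83 10) := RW.ck 13 83 10 (by decide +kernel)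

theorem r13_93 : RW 5 3 3 D cls mv 13 93 (Nat.add 93 10) := RW.ck 13 93 10 (by decide +kernel)

theorem r13_103 : RW 5 3 3 D cls mv 13 103 (Nat.add 103 10) := RW.ck 13 103 10 (by decide +kernel)

theorem r13_113 : RW 5 3 3 D cls mv 13 113 (Nat.add 113 9) := RW.ck 13 113 9 (by decide +kernel)

theorem c13 : CR 5 3 3 D cls mv 122 13 (Nat.succ 13) := CR.one 13 ((((r13_13).trans (r13_23)).trans ((r13_33).trans ((r13_43).trans (r13_53)))).trans (((r13_63).trans ((r13_73).trans (r13_83))).trans ((r13_93).trans ((r13_103).trans (r13_113)))))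

theorem cm13 : CR 5 3 3 D cls mv 122 13 14 := c13

end Vale.Agent.P355.H41.L5
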