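import Vale.Agent.P355.H41.L5.D
import Vale.Agent.P355.H41.F1.Rg

namespace Vale.Agent.P355.H41.L5

open Vale.Agent.P355 Vale.Agent.P355.H147 Vale.Agent.P355.H998.E Vale.Agent.P355.H41.F1

theorem r14_14 : RW 5 3 3 D cls mv 14 14 (Nat.add 14 10) := RW.ck 14 14 10 (by decide +kernel)

theorem r14_24 : RW 5 3 3 D cls mv 14 24 (Nat.add 24 10) := RW.ck 14 24 10 (by decide +kernel)

theorem r14_34 : RW 5 3 3 D cls mv 14 34 (Nat.add 34 10) := RW.ck 14 34 10 (by decide +kernel)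

theorem r14_44 : RW 5 3 3 D cls mv 14 44 (Nat.add 44 10) := RW.ck 14 44 10 (by decide +kernel)

theorem r14_54 : RW 5 3 3 D cls mv 14 54 (Nat.add 54 10) := RW.ck 14 54 10 (by decide +kernel)

theorem r14_64 : RW 5 3 3 D cls mv 14 64 (Nat.add 64 10) := RW.ck 14 64 10 (by decide +kernel)

theorem r14_74 : RW 5 3 3 D cls mv 14 74 (Nat.add 74 10) := RW.ck 14 74 10 (by decide +kernel)

theorem r14_84 : RW 5 3 3 D cls mv 14 84 (Nat.add 84 10) := RW.ck 14 84 10 (by decide +kernel)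

theorem r14_94 : RW 5 3 3 D cls mv 14 94 (Nat.add 94 10) := RW.ck 14 94 10 (by decide +kernel)

theorem r14_104 : RW 5 3 3 D cls mv 14 104 (Nat.add 104 10) := RW.ck 14 104 10 (by decide +kernel)

theorem r14_114 : RW 5 3 3 D cls mv 14 114 (Nat.add 114 8) := RW.ck 14 114 8 (by decide +kernel)

theorem c14 : CR 5 3 3 D cls mv 122 14 (Nat.succ 14) := CR.one 14 ((((r14_14).trans (r14_24)).trans ((r14_34).trans ((r14_44).trans (r14_54)))).trans (((r14_64).trans ((r14_74).trans (r14_84))).trans ((r14_94).trans ((r14_104).trans (r14_114)))))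

theorem cm14 : CR 5 3 3 D cls mv 122 14 15 := c14

end Vale.Agent.P355.H41.L5
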