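import Vale.Agent.P355.H41.L5.D
import Vale.Agent.P355.H41.F1.Rg

namespace Vale.Agent.P355.H41.L5

open Vale.Agent.P355 Vale.Agent.P355.H147 Vale.Agent.P355.H998.E Vale.Agent.P355.H41.F1

theorem r15_15 : RW 5 3 3 D cls mv 15 15 (Nat.add 15 10) := RW.ck 15 15 10 (by decide +kernel)

theorem r15_25 : RW 5 3 3 D cls mv 15 25 (Nat.add 25 10) := RW.ck 15 25 10 (by decide +kernel)

theorem r15_35 : RW 5 3 3 D cls mv 15 35 (Nat.add 35 10) := RW.ck 15 35 10 (by decide +kernel)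

theorem r15_45 : RW 5 3 3 D cls mv 15 45 (Nat.add 45 10) := RW.ck 15 45 10 (by decide +kernel)

theorem r15_55 : RW 5 3 3 D cls mv 15 55 (Nat.add 55 10) := RW.ck 15 55 10 (by decide +kernel)

theorem r15_65 : RW 5 3 3 D cls mv 15 65 (Nat.add 65 10) := RW.ck 15 65 10 (by decide +kernel)

theorem r15_75 : RW 5 3 3 D cls mv 15 75 (Nat.add 75 10) := RW.ck 15 75 10 (by decide +kernel)

theorem r15_85 : RW 5 3 3 D cls mv 15 85 (Nat.add 85 10) := RW.ck 15 85 10 (by decide +kernel)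

theorem r15_95 : RW 5 3 3 D cls mv 15 95 (Nat.add 95 10) := RW.ck 15 95 10 (by decide +kernel)

theorem r15_105 : RW 5 3 3 D cls mv 15 105 (Nat.add 105 10) := RW.ck 15 105 10 (by decide +kernel)

theorem r15_115 : RW 5 3 3 D cls mv 15 115 (Nat.add 115 7) := RW.ck 15 115 7 (by decide +kernel)

theorem c15 : CR 5 3 3 D cls mv 122 15 (Nat.succ 15) := CR.one 15 ((((r15_15).trans (r15_25)).trans ((r15_35).trans ((r15_45).trans (r15_55)))).trans (((r15_65).trans ((r15_75).trans (r15_85))).trans ((r15_95).trans ((r15_105).trans (r15_115)))))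

theorem cm15 : CR 5 3 3 D cls mv 122 15 16 := c15

end Vale.Agent.P355.H41.L5
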