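import Vale.Agent.P355.H41.L5.D
import Vale.Agent.P355.H41.F1.Rg

namespace Vale.Agent.P355.H41.L5

open Vale.Agent.P355 Vale.Agent.P355.H147 Vale.Agent.P355.H998.E Vale.Agent.P355.H41.F1

theorem r16_16 : RW 5 3 3 D cls mv 16 16 (Nat.add 16 10) := RW.ck 16 16 10 (by decide +kernel)

theorem r16_26 : RW 5 3 3 D cls mv 16 26 (Nat.add 26 10) := RW.ck 16 26 10 (by decide +kernel)

theorem r16_36 : RW 5 3 3 D cls mv 16 36 (Nat.add 36 10) := RW.ck 16 36 10 (by decide +kernel)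

theorem r16_46 : RW 5 3 3 D cls mv 16 46 (Nat.add 46 10) := RW.ck 16 46 10 (by decide +kernel)

theorem r16_56 : RW 5 3 3 D cls mv 16 56 (Nat.add 56 10) := RW.ck 16 56 10 (by decide +kernel)

theorem r16_66 : RW 5 3 3 D cls mv 16 66 (Nat.add 66 10) := RW.ck 16 66 10 (by decide +kernel)

theorem r16_76 : RW 5 3 3 D cls mv 16 76 (Nat.add 76 10) := RW.ck 16 76 10 (by decide +kernel)

theorem r16_86 : RW 5 3 3 D cls mv 16 86 (Nat.add 86 10) := RW.ck 16 86 10 (by decide +kernel)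

theorem r16_96 : RW 5 3 3 D cls mv 16 96 (Nat.add 96 10) := RW.ck 16 96 10 (by decide +kernel)

theorem r16_106 : RW 5 3 3 D cls mv 16 106 (Nat.add 106 10) := RW.ck 16 106 10 (by decide +kernel)

theorem r16_116 : RW 5 3 3 D cls mv 16 116 (Nat.add 116 6) := RW.ck 16 116 6 (by decide +kernel)

theorem c16 : CR 5 3 3 D cls mv 122 16 (Nat.succ 16) := CR.one 16 ((((r16_16).trans (r16_26)).trans ((r16_36).trans ((r16_46).trans (r16_56)))).trans (((r16_66).trans ((r16_76).trans (r16_86))).trans ((r16_96).trans ((r16_106).trans (r16_116)))))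

theorem cm16 : CR 5 3 3 D cls mv 122 16 17 := c16

end Vale.Agent.P355.H41.L5
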