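import Vale.Agent.P355.H41.L5.D
import Vale.Agent.P355.H41.F1.Rg

namespace Vale.Agent.P355.H41.L5

open Vale.Agent.P355 Vale.Agent.P355.H147 Vale.Agent.P355.H998.E Vale.Agent.P355.H41.F1

theorem r17_17 : RW 5 3 3 D cls mv 17 17 (Nat.add 17 10) := RW.ck 17 17 10 (by decide +kernel)

theorem r17_27 : RW 5 3 3 D cls mv 17 27 (Nat.add 27 10) := RW.ck 17 27 10 (by decide +kernel)

theorem r17_37 : RW 5 3 3 D cls mv 17 37 (Nat.add 37 10) := RW.ck 17 37 10 (by decide +kernel)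

theorem r17_47 : RW 5 3 3 D cls mv 17 47 (Nat.add 47 10) := RW.ck 17 47 10 (by decide +kernel)

theorem r17_57 : RW 5 3 3 D cls mv 17 57 (Nat.add 57 10) := RW.ck 17 57 10 (by decide +kernel)

theorem r17_67 : RW 5 3 3 D cls mv 17 67 (Nat.add 67 10) := RW.ck 17 67 10 (by decide +kernel)

theorem r17_77 : RW 5 3 3 D cls mv 17 77 (Nat.add 77 10) := RW.ck 17 77 10 (by decide +kernel)

theorem r17_87 : RW 5 3 3 D cls mv 17 87 (Nat.add 87 10) := RW.ck 17 87 10 (by decide +kernel)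

theorem r17_97 : RW 5 3 3 D cls mv 17 97 (Nat.add 97 10) := RW.ck 17 97 10 (by decide +kernel)

theorem r17_107 : RW 5 3 3 D cls mv 17 107 (Nat.add 107 10) := RW.ck 17 107 10 (by decide +kernel)

theorem r17_117 : RW 5 3 3 D cls mv 17 117 (Nat.add 117 5) := RW.ck 17 117 5 (by decide +kernel)

theorem c17 : CR 5 3 3 D cls mv 122 17 (Nat.succ 17) := CR.one 17 ((((r17_17).trans (r17_27)).trans ((r17_37).trans ((r17_47).trans (r17_57)))).trans (((r17_67).trans ((r17_77).trans (r17_87))).trans ((r17_97).trans ((r17_107).trans (r17_117)))))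

theorem cm17 : CR 5 3 3 D cls mv 122 17 18 := c17

end Vale.Agent.P355.H41.L5
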