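import Vale.Agent.P355.H41.L5.D
import Vale.Agent.P355.H41.F1.Rg

namespace Vale.Agent.P355.H41.L5

open Vale.Agent.P355 Vale.Agent.P355.H147 Vale.Agent.P355.H998.E Vale.Agent.P355.H41.F1

theorem r18_18 : RW 5 3 3 D cls mv 18 18 (Nat.add 18 10) := RW.ck 18 18 10 (by decide +kernel)

theorem r18_28 : RW 5 3 3 D cls mv 18 28 (Nat.add 28 10) := RW.ck 18 28 10 (by decide +kernel)

theorem r18_38 : RW 5 3 3 D cls mv 18 38 (Nat.add 38 10) := RW.ck 18 38 10 (by decide +kernel)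

theorem r18_48 : RW 5 3 3 D cls mv 18 48 (Nat.add 48 10) := RW.ck 18 48 10 (by decide +kernel)

theorem r18_58 : RW 5 3 3 D cls mv 18 58 (Nat.add 58 10) := RW.ck 18 58 10 (by decide +kernel)

theorem r18_68 : RW 5 3 3 D cls mv 18 68 (Nat.add 68 10) := RW.ck 18 68 10 (by decide +kernel)

theorem r18_78 : RW 5 3 3 D cls mv 18 78 (Nat.add 78 10) := RW.ck 18 78 10 (by decide +kernel)

theorem r18_88 : RW 5 3 3 D cls mv 18 88 (Nat.add 88 10) := RW.ck 18 88 10 (by decide +kernel)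

theorem r18_98 : RW 5 3 3 D cls mv 18 98 (Nat.add 98 10) := RW.ck 18 98 10 (by decide +kernel)

theorem r18_108 : RW 5 3 3 D cls mv 18 108 (Nat.add 108 10) := RW.ck 18 108 10 (by decide +kernel)

theorem r18_118 : RW 5 3 3 D cls mv 18 118 (Nat.add 118 4) := RW.ck 18 118 4 (by decide +kernel)

theorem c18 : CR 5 3 3 D cls mv 122 18 (Nat.succ 18) := CR.one 18 ((((r18_18).trans (r18_28)).trans ((r18_38).trans ((r18_48).trans (r18_58)))).trans (((r18_68).trans ((r18_78).trans (r18_88))).trans ((r18_98).trans ((r18_108).trans (r18_118)))))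

theorem cm18 : CR 5 3 3 D cls mv 122 18 19 := c18

end Vale.Agent.P355.H41.L5
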