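import Vale.Agent.P355.H41.L5.D
import Vale.Agent.P355.H41.F1.Rg

namespace Vale.Agent.P355.H41.L5

open Vale.Agent.P355 Vale.Agent.P355.H147 Vale.Agent.P355.H998.E Vale.Agent.P355.H41.F1

theorem r19_19 : RW 5 3 3 D cls mv 19 19 (Nat.add 19 10) := RW.ck 19 19 10 (by decide +kernel)

theorem r19_29 : RW 5 3 3 D cls mv 19 29 (Nat.add 29 10) := RW.ck 19 29 10 (by decide +kernel)

theorem r19_39 : RW 5 3 3 D cls mv 19 39 (Nat.add 39 10) := RW.ck 19 39 10 (by decide +kernel)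

theorem r19_49 : RW 5 3 3 D cls mv 19 49 (Nat.add 49 10) := RW.ck 19 49 10 (by decide +kernel)

theorem r19_59 : RW 5 3 3 D cls mv 19 59 (Nat.add 59 10) := RW.ck 19 59 10 (by decide +kernel)

theorem r19_69 : RW 5 3 3 D cls mv 19 69 (Nat.add 69 10) := RW.ck 19 69 10 (by decide +kernel)

theorem r19_79 : RW 5 3 3 D cls mv 19 79 (Nat.add 79 10) := RW.ck 19 79 10 (by decide +kernel)

theorem r19_89 : RW 5 3 3 D cls mv 19 89 (Nat.add 89 10) := RW.ck 19 89 10 (by decide +kernel)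

theorem r19_99 : RW 5 3 3 D cls mv 19 99 (Nat.add 99 10) := RW.ck 19 99 10 (by decide +kernel)

theorem r19_109 : RW 5 3 3 D cls mv 19 109 (Nat.add 109 10) := RW.ck 19 109 10 (by decide +kernel)

theorem r19_119 : RW 5 3 3 D cls mv 19 119 (Nat.add 119 3) := RW.ck 19 119 3 (by decide +kernel)

theorem c19 : CR 5 3 3 D cls mv 122 19 (Nat.succ 19) := CR.one 19 ((((r19_19).trans (r19_29)).trans ((r19_39).trans ((r19_49).trans (r19_59)))).trans (((r19_69).trans ((r19_79).trans (r19_89))).trans ((r19_99).trans ((r19_109).trans (r19_119)))))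

theorem cm19 : CR 5 3 3 D cls mv 122 19 20 := c19

end Vale.Agent.P355.H41.L5
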