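import Vale.Agent.P355.H41.L5.D
import Vale.Agent.P355.H41.F1.Rg

namespace Vale.Agent.P355.H41.L5

open Vale.Agent.P355 Vale.Agent.P355.H147 Vale.Agent.P355.H998.E Vale.Agent.P355.H41.F1

theorem r2_2 : RW 5 3 3 D cls mv 2 2 (Nat.add 2 10) := RW.ck 2 2 10 (by decide +kernel)

theorem r2_12 : RW 5 3 3 D cls mv 2 12 (Nat.add 12 10) := RW.ck 2 12 10 (by decide +kernel)

theorem r2_22 : RW 5 3 3 D cls mv 2 22 (Nat.add 22 10) := RW.ck 2 22 10 (by decide +kernel)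

theorem r2_32 : RW 5 3 3 D cls mv 2 32 (Nat.add 32 10) := RW.ck 2 32 10 (by decide +kernel)

theorem r2_42 : RW 5 3 3 D cls mv 2 42 (Nat.add 42 10) := RW.ck 2 42 10 (by decide +kernel)

theorem r2_52 : RW 5 3 3 D cls mv 2 52 (Nat.add 52 10) := RW.ck 2 52 10 (by decide +kernel)

theorem r2_62 : RW 5 3 3 D cls mv 2 62 (Nat.add 62 10) := RW.ck 2 62 10 (by decide +kernel)

theorem r2_72 : RW 5 3 3 D cls mv 2 72 (Nat.add 72 10) := RW.ck 2 72 10 (by decide +kernel)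

theorem r2_82 : RW 5 3 3 D cls mv 2 82 (Nat.add 82 10) := RW.ck 2 82 10 (by decide +kernel)

theorem r2_92 : RW 5 3 3 D cls mv 2 92 (Nat.add 92 10) := RW.ck 2 92 10 (by decide +kernel)

theorem r2_102 : RW 5 3 3 D cls mv 2 102 (Nat.add 102 10) := RW.ck 2 102 10 (by decide +kernel)

theorem r2_112 : RW 5 3 3 D cls mv 2 112 (Nat.add 112 10) := RW.ck 2 112 10 (by decide +kernel)

theorem c2 : CR 5 3 3 D cls mv 122 2 (Nat.succ 2) := CR.one 2 ((((r2_2).trans ((r2_12).trans (r2_22))).trans ((r2_32).trans ((r2_42).trans (r2_52)))).trans (((r2_62).trans ((r2_72).trans (r2_82))).trans ((r2_92).trans ((r2_102).trans (r2_112)))))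

theorem cm2 : CR 5 3 3 D cls mv 122 2 3 := c2

end Vale.Agent.P355.H41.L5
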