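import Vale.Agent.P355.H41.L5.D
import Vale.Agent.P355.H41.F1.Rg

namespace Vale.Agent.P355.H41.L5

open Vale.Agent.P355 Vale.Agent.P355.H147 Vale.Agent.P355.H998.E Vale.Agent.P355.H41.F1

theorem r20_20 : RW 5 3 3 D cls mv 20 20 (Nat.add 20 10) := RW.ck 20 20 10 (by decide +kernel)

theorem r20_30 : RW 5 3 3 D cls mv 20 30 (Nat.add 30 10) := RW.ck 20 30 10 (by decide +kernel)

theorem r20_40 : RW 5 3 3 D cls mv 20 40 (Nat.add 40 10) := RW.ck 20 40 10 (by decide +kernel)

theorem r20_50 : RW 5 3 3 D cls mv 20 50 (Nat.add 50 10) := RW.ck 20 50 10 (by decide +kernel)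

theorem r20_60 : RW 5 3 3 D cls mv 20 60 (Nat.add 60 10) := RW.ck 20 60 10 (by decide +kernel)

theorem r20_70 : RW 5 3 3 D cls mv 20 70 (Nat.add 70 10) := RW.ck 20 70 10 (by decide +kernel)

theorem r20_80 : RW 5 3 3 D cls mv 20 80 (Nat.add 80 10) := RW.ck 20 80 10 (by decide +kernel)

theorem r20_90 : RW 5 3 3 D cls mv 20 90 (Nat.add 90 10) := RW.ck 20 90 10 (by decide +kernel)

theorem r20_100 : RW 5 3 3 D cls mv 20 100 (Nat.add 100 10) := RW.ck 20 100 10 (by decide +kernel)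

theorem r20_110 : RW 5 3 3 D cls mv 20 110 (Nat.add 110 10) := RW.ck 20 110 10 (by decide +kernel)

theorem r20_120 : RW 5 3 3 D cls mv 20 120 (Nat.add 120 2) := RW.ck 20 120 2 (by decide +kernel)

theorem c20 : CR 5 3 3 D cls mv 122 20 (Nat.succ 20) := CR.one 20 ((((r20_20).trans (r20_30)).trans ((r20_40).trans ((r20_50).trans (r20_60)))).trans (((r20_70).trans ((r20_80).trans (r20_90))).trans ((r20_100).trans ((r20_110).trans (r20_120)))))

theorem cm20 : CR 5 3 3 D cls mv 122 20 21 := c20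

end Vale.Agent.P355.H41.L5
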