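import Vale.Agent.P355.H41.L5.D
import Vale.Agent.P355.H41.F1.Rg

namespace Vale.Agent.P355.H41.L5

open Vale.Agent.P355 Vale.Agent.P355.H147 Vale.Agent.P355.H998.E Vale.Agent.P355.H41.F1

theorem r21_21 : RW 5 3 3 D cls mv 21 21 (Nat.add 21 10) := RW.ck 21 21 10 (by decide +kernel)

theorem r21_31 : RW 5 3 3 D cls mv 21 31 (Nat.add 31 10) := RW.ck 21 31 10 (by decide +kernel)

theorem r21_41 : RW 5 3 3 D cls mv 21 41 (Nat.add 41 10) := RW.ck 21 41 10 (by decide +kernel)

theorem r21_51 : RW 5 3 3 D cls mv 21 51 (Nat.add 51 10) := RW.ck 21 51 10 (by decide +kernel)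

theorem r21_61 : RW 5 3 3 D cls mv 21 61 (Nat.add 61 10) := RW.ck 21 61 10 (by decide +kernel)

theorem r21_71 : RW 5 3 3 D cls mv 21 71 (Nat.add 71 10) := RW.ck 21 71 10 (by decide +kernel)

theorem r21_81 : RW 5 3 3 D cls mv 21 81 (Nat.add 81 10) := RW.ck 21 81 10 (by decide +kernel)

theorem r21_91 : RW 5 3 3 D cls mv 21 91 (Nat.add 91 10) := RW.ck 21 91 10 (by decide +kernel)

theorem r21_101 : RW 5 3 3 D cls mv 21 101 (Nat.add 101 10) := RW.ck 21 101 10 (by decide +kernel)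

theorem r21_111 : RW 5 3 3 D cls mv 21 111 (Nat.add 111 10) := RW.ck 21 111 10 (by decide +kernel)

theorem r21_121 : RW 5 3 3 D cls mv 21 121 (Nat.add 121 1) := RW.ck 21 121 1 (by decide +kernel)

theorem c21 : CR 5 3 3 D cls mv 122 21 (Nat.succ 21) := CR.one 21 ((((r21_21).trans (r21_31)).trans ((r21_41).trans ((r21_51).trans (r21_61)))).trans (((r21_71).trans ((r21_81).trans (r21_91))).trans ((r21_101).trans ((r21_111).trans (r21_121)))))

theorem cm21 : CR 5 3 3 D cls mv 122 21 22 := c21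

end Vale.Agent.P355.H41.L5
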