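import Vale.Agent.P355.H41.L5.D
import Vale.Agent.P355.H41.F1.Rg

namespace Vale.Agent.P355.H41.L5

open Vale.Agent.P355 Vale.Agent.P355.H147 Vale.Agent.P355.H998.E Vale.Agent.P355.H41.F1

theorem r22_22 : RW 5 3 3 D cls mv 22 22 (Nat.add 22 10) := RW.ck 22 22 10 (by decide +kernel)

theorem r22_32 : RW 5 3 3 D cls mv 22 32 (Nat.add 32 10) := RW.ck 22 32 10 (by decide +kernel)

theorem r22_42 : RW 5 3 3 D cls mv 22 42 (Nat.add 42 10) := RW.ck 22 42 10 (by decide +kernel)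

theorem r22_52 : RW 5 3 3 D cls mv 22 52 (Nat.add 52 10) := RW.ck 22 52 10 (by decide +kernel)

theorem r22_62 : RW 5 3 3 D cls mv 22 62 (Nat.add 62 10) := RW.ck 22 62 10 (by decide +kernel)

theorem r22_72 : RW 5 3 3 D cls mv 22 72 (Nat.add 72 10) := RW.ck 22 72 10 (by decide +kernel)

theorem r22_82 : RW 5 3 3 D cls mv 22 82 (Nat.add 82 10) := RW.ck 22 82 10 (by decide +kernel)

theorem r22_92 : RW 5 3 3 D cls mv 22 92 (Nat.add 92 10) := RW.ck 22 92 10 (by decide +kernel)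

theorem r22_102 : RW 5 3 3 D cls mv 22 102 (Nat.add 102 10) := RW.ck 22 102 10 (by decide +kernel)

theorem r22_112 : RW 5 3 3 D cls mv 22 112 (Nat.add 112 10) := RW.ck 22 112 10 (by decide +kernel)

theorem c22 : CR 5 3 3 D cls mv 122 22 (Nat.succ 22) := CR.one 22 ((((r22_22).trans (r22_32)).trans ((r22_42).trans ((r22_52).trans (r22_62)))).trans (((r22_72).trans (r22_82)).trans ((r22_92).trans ((r22_102).trans (r22_112)))))

theorem cm22 : CR 5 3 3 D cls mv 122 22 23 := c22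

end Vale.Agent.P355.H41.L5
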