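import Vale.Agent.P355.H41.L5.D
import Vale.Agent.P355.H41.F1.Rg

namespace Vale.Agent.P355.H41.L5

open Vale.Agent.P355 Vale.Agent.P355.H147 Vale.Agent.P355.H998.E Vale.Agent.P355.H41.F1

theorem r23_23 : RW 5 3 3 D cls mv 23 23 (Nat.add 23 10) := RW.ck 23 23 10 (by decide +kernel)

theorem r23_33 : RW 5 3 3 D cls mv 23 33 (Nat.add 33 10) := RW.ck 23 33 10 (by decide +kernel)

theorem r23_43 : RW 5 3 3 D cls mv 23 43 (Nat.add 43 10) := RW.ck 23 43 10 (by decide +kernel)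

theorem r23_53 : RW 5 3 3 D cls mv 23 53 (Nat.add 53 10) := RW.ck 23 53 10 (by decide +kernel)

theorem r23_63 : RW 5 3 3 D cls mv 23 63 (Nat.add 63 10) := RW.ck 23 63 10 (by decide +kernel)

theorem r23_73 : RW 5 3 3 D cls mv 23 73 (Nat.add 73 10) := RW.ck 23 73 10 (by decide +kernel)

theorem r23_83 : RW 5 3 3 D cls mv 23 83 (Nat.add 83 10) := RW.ck 23 83 10 (by decide +kernel)

theorem r23_93 : RW 5 3 3 D cls mv 23 93 (Nat.add 93 10) := RW.ck 23 93 10 (by decide +kernel)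

theorem r23_103 : RW 5 3 3 D cls mv 23 103 (Nat.add 103 10) := RW.ck 23 103 10 (by decide +kernel)

theorem r23_113 : RW 5 3 3 D cls mv 23 113 (Nat.add 113 9) := RW.ck 23 113 9 (by decide +kernel)

theorem c23 : CR 5 3 3 D cls mv 122 23 (Nat.succ 23) := CR.one 23 ((((r23_23).trans (r23_33)).trans ((r23_43).trans ((r23_53).trans (r23_63)))).trans (((r23_73).trans (r23_83)).trans ((r23_93).trans ((r23_103).trans (r23_113)))))

theorem cm23 : CR 5 3 3 D cls mv 122 23 24 := c23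

end Vale.Agent.P355.H41.L5
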