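import Vale.Agent.P355.H41.L5.D
import Vale.Agent.P355.H41.F1.Rg

namespace Vale.Agent.P355.H41.L5

open Vale.Agent.P355 Vale.Agent.P355.H147 Vale.Agent.P355.H998.E Vale.Agent.P355.H41.F1

theorem r24_24 : RW 5 3 3 D cls mv 24 24 (Nat.add 24 10) := RW.ck 24 24 10 (by decide +kernel)

theorem r24_34 : RW 5 3 3 D cls mv 24 34 (Nat.add 34 10) := RW.ck 24 34 10 (by decide +kernel)

theorem r24_44 : RW 5 3 3 D cls mv 24 44 (Nat.add 44 10) := RW.ck 24 44 10 (by decide +kernel)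

theorem r24_54 : RW 5 3 3 D cls mv 24 54 (Nat.add 54 10) := RW.ck 24 54 10 (by decide +kernel)

theorem r24_64 : RW 5 3 3 D cls mv 24 64 (Nat.add 64 10) := RW.ck 24 64 10 (by decide +kernel)

theorem r24_74 : RW 5 3 3 D cls mv 24 74 (Nat.add 74 10) := RW.ck 24 74 10 (by decide +kernel)

theorem r24_84 : RW 5 3 3 D cls mv 24 84 (Nat.add 84 10) := RW.ck 24 84 10 (by decide +kernel)

theorem r24_94 : RW 5 3 3 D cls mv 24 94 (Nat.add 94 10) := RW.ck 24 94 10 (by decide +kernel)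

theorem r24_104 : RW 5 3 3 D cls mv 24 104 (Nat.add 104 10) := RW.ck 24 104 10 (by decide +kernel)

theorem r24_114 : RW 5 3 3 D cls mv 24 114 (Nat.add 114 8) := RW.ck 24 114 8 (by decide +kernel)

theorem c24 : CR 5 3 3 D cls mv 122 24 (Nat.succ 24) := CR.one 24 ((((r24_24).trans (r24_34)).trans ((r24_44).trans ((r24_54).trans (r24_64)))).trans (((r24_74).trans (r24_84)).trans ((r24_94).trans ((r24_104).trans (r24_114)))))

theorem cm24 : CR 5 3 3 D cls mv 122 24 25 := c24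

end Vale.Agent.P355.H41.L5
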