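import Vale.Agent.P355.H41.L5.D
import Vale.Agent.P355.H41.F1.Rg

namespace Vale.Agent.P355.H41.L5

open Vale.Agent.P355 Vale.Agent.P355.H147 Vale.Agent.P355.H998.E Vale.Agent.P355.H41.F1

theorem r25_25 : RW 5 3 3 D cls mv 25 25 (Nat.add 25 10) := RW.ck 25 25 10 (by decide +kernel)

theorem r25_35 : RW 5 3 3 D cls mv 25 35 (Nat.add 35 10) := RW.ck 25 35 10 (by decide +kernel)

theorem r25_45 : RW 5 3 3 D cls mv 25 45 (Nat.add 45 10) := RW.ck 25 45 10 (by decide +kernel)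

theorem r25_55 : RW 5 3 3 D cls mv 25 55 (Nat.add 55 10) := RW.ck 25 55 10 (by decide +kernel)

theorem r25_65 : RW 5 3 3 D cls mv 25 65 (Nat.add 65 10) := RW.ck 25 65 10 (by decide +kernel)

theorem r25_75 : RW 5 3 3 D cls mv 25 75 (Nat.add 75 10) := RW.ck 25 75 10 (by decide +kernel)

theorem r25_85 : RW 5 3 3 D cls mv 25 85 (Nat.add 85 10) := RW.ck 25 85 10 (by decide +kernel)

theorem r25_95 : RW 5 3 3 D cls mv 25 95 (Nat.add 95 10) := RW.ck 25 95 10 (by decide +kernel)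

theorem r25_105 : RW 5 3 3 D cls mv 25 105 (Nat.add 105 10) := RW.ck 25 105 10 (by decide +kernel)

theorem r25_115 : RW 5 3 3 D cls mv 25 115 (Nat.add 115 7) := RW.ck 25 115 7 (by decide +kernel)

theorem c25 : CR 5 3 3 D cls mv 122 25 (Nat.succ 25) := CR.one 25 ((((r25_25).trans (r25_35)).trans ((r25_45).trans ((r25_55).trans (r25_65)))).trans (((r25_75).trans (r25_85)).trans ((r25_95).trans ((r25_105).trans (r25_115)))))

theorem cm25 : CR 5 3 3 D cls mv 122 25 26 := c25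

end Vale.Agent.P355.H41.L5
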