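import Vale.Agent.P355.H41.L5.D
import Vale.Agent.P355.H41.F1.Rg

namespace Vale.Agent.P355.H41.L5

open Vale.Agent.P355 Vale.Agent.P355.H147 Vale.Agent.P355.H998.E Vale.Agent.P355.H41.F1

theorem r26_26 : RW 5 3 3 D cls mv 26 26 (Nat.add 26 10) := RW.ck 26 26 10 (by decide +kernel)

theorem r26_36 : RW 5 3 3 D cls mv 26 36 (Nat.add 36 10) := RW.ck 26 36 10 (by decide +kernel)

theorem r26_46 : RW 5 3 3 D cls mv 26 46 (Nat.add 46 10) := RW.ck 26 46 10 (by decide +kernel)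

theorem r26_56 : RW 5 3 3 D cls mv 26 56 (Nat.add 56 10) := RW.ck 26 56 10 (by decide +kernel)

theorem r26_66 : RW 5 3 3 D cls mv 26 66 (Nat.add 66 10) := RW.ck 26 66 10 (by decide +kernel)

theorem r26_76 : RW 5 3 3 D cls mv 26 76 (Nat.add 76 10) := RW.ck 26 76 10 (by decide +kernel)

theorem r26_86 : RW 5 3 3 D cls mv 26 86 (Nat.add 86 10) := RW.ck 26 86 10 (by decide +kernel)

theorem r26_96 : RW 5 3 3 D cls mv 26 96 (Nat.add 96 10) := RW.ck 26 96 10 (by decide +kernel)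

theorem r26_106 : RW 5 3 3 D cls mv 26 106 (Nat.add 106 10) := RW.ck 26 106 10 (by decide +kernel)

theorem r26_116 : RW 5 3 3 D cls mv 26 116 (Nat.add 116 6) := RW.ck 26 116 6 (by decide +kernel)

theorem c26 : CR 5 3 3 D cls mv 122 26 (Nat.succ 26) := CR.one 26 ((((r26_26).trans (r26_36)).trans ((r26_46).trans ((r26_56).trans (r26_66)))).trans (((r26_76).trans (r26_86)).trans ((r26_96).trans ((r26_106).trans (r26_116)))))

theorem cm26 : CR 5 3 3 D cls mv 122 26 27 := c26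

end Vale.Agent.P355.H41.L5
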