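import Vale.Agent.P355.H41.L5.D
import Vale.Agent.P355.H41.F1.Rg

namespace Vale.Agent.P355.H41.L5

open Vale.Agent.P355 Vale.Agent.P355.H147 Vale.Agent.P355.H998.E Vale.Agent.P355.H41.F1

theorem r27_27 : RW 5 3 3 D cls mv 27 27 (Nat.add 27 10) := RW.ck 27 27 10 (by decide +kernel)

theorem r27_37 : RW 5 3 3 D cls mv 27 37 (Nat.add 37 10) := RW.ck 27 37 10 (by decide +kernel)

theorem r27_47 : RW 5 3 3 D cls mv 27 47 (Nat.add 47 10) := RW.ck 27 47 10 (by decide +kernel)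

theorem r27_57 : RW 5 3 3 D cls mv 27 57 (Nat.add 57 10) := RW.ck 27 57 10 (by decide +kernel)

theorem r27_67 : RW 5 3 3 D cls mv 27 67 (Nat.add 67 10) := RW.ck 27 67 10 (by decide +kernel)

theorem r27_77 : RW 5 3 3 D cls mv 27 77 (Nat.add 77 10) := RW.ck 27 77 10 (by decide +kernel)

theorem r27_87 : RW 5 3 3 D cls mv 27 87 (Nat.add 87 10) := RW.ck 27 87 10 (by decide +kernel)

theorem r27_97 : RW 5 3 3 D cls mv 27 97 (Nat.add 97 10) := RW.ck 27 97 10 (by decide +kernel)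

theorem r27_107 : RW 5 3 3 D cls mv 27 107 (Nat.add 107 10) := RW.ck 27 107 10 (by decide +kernel)

theorem r27_117 : RW 5 3 3 D cls mv 27 117 (Nat.add 117 5) := RW.ck 27 117 5 (by decide +kernel)

theorem c27 : CR 5 3 3 D cls mv 122 27 (Nat.succ 27) := CR.one 27 ((((r27_27).trans (r27_37)).trans ((r27_47).trans ((r27_57).trans (r27_67)))).trans (((r27_77).trans (r27_87)).trans ((r27_97).trans ((r27_107).trans (r27_117)))))

theorem cm27 : CR 5 3 3 D cls mv 122 27 28 := c27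

end Vale.Agent.P355.H41.L5
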