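import Vale.Agent.P355.H41.L5.D
import Vale.Agent.P355.H41.F1.Rg

namespace Vale.Agent.P355.H41.L5

open Vale.Agent.P355 Vale.Agent.P355.H147 Vale.Agent.P355.H998.E Vale.Agent.P355.H41.F1

theorem r28_28 : RW 5 3 3 D cls mv 28 28 (Nat.add 28 10) := RW.ck 28 28 10 (by decide +kernel)

theorem r28_38 : RW 5 3 3 D cls mv 28 38 (Nat.add 38 10) := RW.ck 28 38 10 (by decide +kernel)

theorem r28_48 : RW 5 3 3 D cls mv 28 48 (Nat.add 48 10) := RW.ck 28 48 10 (by decide +kernel)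

theorem r28_58 : RW 5 3 3 D cls mv 28 58 (Nat.add 58 10) := RW.ck 28 58 10 (by decide +kernel)

theorem r28_68 : RW 5 3 3 D cls mv 28 68 (Nat.add 68 10) := RW.ck 28 68 10 (by decide +kernel)

theorem r28_78 : RW 5 3 3 D cls mv 28 78 (Nat.add 78 10) := RW.ck 28 78 10 (by decide +kernel)

theorem r28_88 : RW 5 3 3 D cls mv 28 88 (Nat.add 88 10) := RW.ck 28 88 10 (by decide +kernel)

theorem r28_98 : RW 5 3 3 D cls mv 28 98 (Nat.add 98 10) := RW.ck 28 98 10 (by decide +kernel)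

theorem r28_108 : RW 5 3 3 D cls mv 28 108 (Nat.add 108 10) := RW.ck 28 108 10 (by decide +kernel)

theorem r28_118 : RW 5 3 3 D cls mv 28 118 (Nat.add 118 4) := RW.ck 28 118 4 (by decide +kernel)

theorem c28 : CR 5 3 3 D cls mv 122 28 (Nat.succ 28) := CR.one 28 ((((r28_28).trans (r28_38)).trans ((r28_48).trans ((r28_58).trans (r28_68)))).trans (((r28_78).trans (r28_88)).trans ((r28_98).trans ((r28_108).trans (r28_118)))))

theorem cm28 : CR 5 3 3 D cls mv 122 28 29 := c28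

end Vale.Agent.P355.H41.L5
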