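import Vale.Agent.P355.H41.L5.D
import Vale.Agent.P355.H41.F1.Rg

namespace Vale.Agent.P355.H41.L5

open Vale.Agent.P355 Vale.Agent.P355.H147 Vale.Agent.P355.H998.E Vale.Agent.P355.H41.F1

theorem r29_29 : RW 5 3 3 D cls mv 29 29 (Nat.add 29 10) := RW.ck 29 29 10 (by decide +kernel)

theorem r29_39 : RW 5 3 3 D cls mv 29 39 (Nat.add 39 10) := RW.ck 29 39 10 (by decide +kernel)

theorem r29_49 : RW 5 3 3 D cls mv 29 49 (Nat.add 49 10) := RW.ck 29 49 10 (by decide +kernel)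

theorem r29_59 : RW 5 3 3 D cls mv 29 59 (Nat.add 59 10) := RW.ck 29 59 10 (by decide +kernel)

theorem r29_69 : RW 5 3 3 D cls mv 29 69 (Nat.add 69 10) := RW.ck 29 69 10 (by decide +kernel)

theorem r29_79 : RW 5 3 3 D cls mv 29 79 (Nat.add 79 10) := RW.ck 29 79 10 (by decide +kernel)

theorem r29_89 : RW 5 3 3 D cls mv 29 89 (Nat.add 89 10) := RW.ck 29 89 10 (by decide +kernel)

theorem r29_99 : RW 5 3 3 D cls mv 29 99 (Nat.add 99 10) := RW.ck 29 99 10 (by decide +kernel)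

theorem r29_109 : RW 5 3 3 D cls mv 29 109 (Nat.add 109 10) := RW.ck 29 109 10 (by decide +kernel)

theorem r29_119 : RW 5 3 3 D cls mv 29 119 (Nat.add 119 3) := RW.ck 29 119 3 (by decide +kernel)

theorem c29 : CR 5 3 3 D cls mv 122 29 (Nat.succ 29) := CR.one 29 ((((r29_29).trans (r29_39)).trans ((r29_49).trans ((r29_59).trans (r29_69)))).trans (((r29_79).trans (r29_89)).trans ((r29_99).trans ((r29_109).trans (r29_119)))))

theorem cm29 : CR 5 3 3 D cls mv 122 29 30 := c29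

end Vale.Agent.P355.H41.L5
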