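import Vale.Agent.P355.H41.L5.D
import Vale.Agent.P355.H41.F1.Rg

namespace Vale.Agent.P355.H41.L5

open Vale.Agent.P355 Vale.Agent.P355.H147 Vale.Agent.P355.H998.E Vale.Agent.P355.H41.F1

theorem r3_3 : RW 5 3 3 D cls mv 3 3 (Nat.add 3 10) := RW.ck 3 3 10 (by decide +kernel)

theorem r3_13 : RW 5 3 3 D cls mv 3 13 (Nat.add 13 10) := RW.ck 3 13 10 (by decide +kernel)

theorem r3_23 : RW 5 3 3 D cls mv 3 23 (Nat.add 23 10) := RW.ck 3 23 10 (by decide +kernel)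

theorem r3_33 : RW 5 3 3 D cls mv 3 33 (Nat.add 33 10) := RW.ck 3 33 10 (by decide +kernel)

theorem r3_43 : RW 5 3 3 D cls mv 3 43 (Nat.add 43 10) := RW.ck 3 43 10 (by decide +kernel)

theorem r3_53 : RW 5 3 3 D cls mv 3 53 (Nat.add 53 10) := RW.ck 3 53 10 (by decide +kernel)

theorem r3_63 : RW 5 3 3 D cls mv 3 63 (Nat.add 63 10) := RW.ck 3 63 10 (by decide +kernel)

theorem r3_73 : RW 5 3 3 D cls mv 3 73 (Nat.add 73 10) := RW.ck 3 73 10 (by decide +kernel)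

theorem r3_83 : RW 5 3 3 D cls mv 3 83 (Nat.add 83 10) := RW.ck 3 83 10 (by decide +kernel)

theorem r3_93 : RW 5 3 3 D cls mv 3 93 (Nat.add 93 10) := RW.ck 3 93 10 (by decide +kernel)

theorem r3_103 : RW 5 3 3 D cls mv 3 103 (Nat.add 103 10) := RW.ck 3 103 10 (by decide +kernel)

theorem r3_113 : RW 5 3 3 D cls mv 3 113 (Nat.add 113 9) := RW.ck 3 113 9 (by decide +kernel)

theorem c3 : CR 5 3 3 D cls mv 122 3 (Nat.succ 3) := CR.one 3 ((((r3_3).trans ((r3_13).trans (r3_23))).trans ((r3_33).trans ((r3_43).trans (r3_53)))).trans (((r3_63).trans ((r3_73).trans (r3_83))).trans ((r3_93).trans ((r3_103).trans (r3_113)))))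

theorem cm3 : CR 5 3 3 D cls mv 122 3 4 := c3

end Vale.Agent.P355.H41.L5
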