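import Vale.Agent.P355.H41.L5.D
import Vale.Agent.P355.H41.F1.Rg

namespace Vale.Agent.P355.H41.L5

open Vale.Agent.P355 Vale.Agent.P355.H147 Vale.Agent.P355.H998.E Vale.Agent.P355.H41.F1

theorem r30_30 : RW 5 3 3 D cls mv 30 30 (Nat.add 30 10) := RW.ck 30 30 10 (by decide +kernel)

theorem r30_40 : RW 5 3 3 D cls mv 30 40 (Nat.add 40 10) := RW.ck 30 40 10 (by decide +kernel)

theorem r30_50 : RW 5 3 3 D cls mv 30 50 (Nat.add 50 10) := RW.ck 30 50 10 (by decide +kernel)

theorem r30_60 : RW 5 3 3 D cls mv 30 60 (Nat.add 60 10) := RW.ck 30 60 10 (by decide +kernel)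

theorem r30_70 : RW 5 3 3 D cls mv 30 70 (Nat.add 70 10) := RW.ck 30 70 10 (by decide +kernel)

theorem r30_80 : RW 5 3 3 D cls mv 30 80 (Nat.add 80 10) := RW.ck 30 80 10 (by decide +kernel)

theorem r30_90 : RW 5 3 3 D cls mv 30 90 (Nat.add 90 10) := RW.ck 30 90 10 (by decide +kernel)

theorem r30_100 : RW 5 3 3 D cls mv 30 100 (Nat.add 100 10) := RW.ck 30 100 10 (by decide +kernel)

theorem r30_110 : RW 5 3 3 D cls mv 30 110 (Nat.add 110 10) := RW.ck 30 110 10 (by decide +kernel)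

theorem r30_120 : RW 5 3 3 D cls mv 30 120 (Nat.add 120 2) := RW.ck 30 120 2 (by decide +kernel)

theorem c30 : CR 5 3 3 D cls mv 122 30 (Nat.succ 30) := CR.one 30 ((((r30_30).trans (r30_40)).trans ((r30_50).trans ((r30_60).trans (r30_70)))).trans (((r30_80).trans (r30_90)).trans ((r30_100).trans ((r30_110).trans (r30_120)))))

theorem cm30 : CR 5 3 3 D cls mv 122 30 31 := c30

end Vale.Agent.P355.H41.L5
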