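import Vale.Agent.P355.H41.L5.D
import Vale.Agent.P355.H41.F1.Rg

namespace Vale.Agent.P355.H41.L5

open Vale.Agent.P355 Vale.Agent.P355.H147 Vale.Agent.P355.H998.E Vale.Agent.P355.H41.F1

theorem r31_31 : RW 5 3 3 D cls mv 31 31 (Nat.add 31 10) := RW.ck 31 31 10 (by decide +kernel)

theorem r31_41 : RW 5 3 3 D cls mv 31 41 (Nat.add 41 10) := RW.ck 31 41 10 (by decide +kernel)

theorem r31_51 : RW 5 3 3 D cls mv 31 51 (Nat.add 51 10) := RW.ck 31 51 10 (by decide +kernel)

theorem r31_61 : RW 5 3 3 D cls mv 31 61 (Nat.add 61 10) := RW.ck 31 61 10 (by decide +kernel)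

theorem r31_71 : RW 5 3 3 D cls mv 31 71 (Nat.add 71 10) := RW.ck 31 71 10 (by decide +kernel)

theorem r31_81 : RW 5 3 3 D cls mv 31 81 (Nat.add 81 10) := RW.ck 31 81 10 (by decide +kernel)

theorem r31_91 : RW 5 3 3 D cls mv 31 91 (Nat.add 91 10) := RW.ck 31 91 10 (by decide +kernel)

theorem r31_101 : RW 5 3 3 D cls mv 31 101 (Nat.add 101 10) := RW.ck 31 101 10 (by decide +kernel)

theorem r31_111 : RW 5 3 3 D cls mv 31 111 (Nat.add 111 10) := RW.ck 31 111 10 (by decide +kernel)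

theorem r31_121 : RW 5 3 3 D cls mv 31 121 (Nat.add 121 1) := RW.ck 31 121 1 (by decide +kernel)

theorem c31 : CR 5 3 3 D cls mv 122 31 (Nat.succ 31) := CR.one 31 ((((r31_31).trans (r31_41)).trans ((r31_51).trans ((r31_61).trans (r31_71)))).trans (((r31_81).trans (r31_91)).trans ((r31_101).trans ((r31_111).trans (r31_121)))))

theorem cm31 : CR 5 3 3 D cls mv 122 31 32 := c31

end Vale.Agent.P355.H41.L5
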