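import Vale.Agent.P355.H41.L5.D
import Vale.Agent.P355.H41.F1.Rg

namespace Vale.Agent.P355.H41.L5

open Vale.Agent.P355 Vale.Agent.P355.H147 Vale.Agent.P355.H998.E Vale.Agent.P355.H41.F1

theorem r32_32 : RW 5 3 3 D cls mv 32 32 (Nat.add 32 10) := RW.ck 32 32 10 (by decide +kernel)

theorem r32_42 : RW 5 3 3 D cls mv 32 42 (Nat.add 42 10) := RW.ck 32 42 10 (by decide +kernel)

theorem r32_52 : RW 5 3 3 D cls mv 32 52 (Nat.add 52 10) := RW.ck 32 52 10 (by decide +kernel)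

theorem r32_62 : RW 5 3 3 D cls mv 32 62 (Nat.add 62 10) := RW.ck 32 62 10 (by decide +kernel)

theorem r32_72 : RW 5 3 3 D cls mv 32 72 (Nat.add 72 10) := RW.ck 32 72 10 (by decide +kernel)

theorem r32_82 : RW 5 3 3 D cls mv 32 82 (Nat.add 82 10) := RW.ck 32 82 10 (by decide +kernel)

theorem r32_92 : RW 5 3 3 D cls mv 32 92 (Nat.add 92 10) := RW.ck 32 92 10 (by decide +kernel)

theorem r32_102 : RW 5 3 3 D cls mv 32 102 (Nat.add 102 10) := RW.ck 32 102 10 (by decide +kernel)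

theorem r32_112 : RW 5 3 3 D cls mv 32 112 (Nat.add 112 10) := RW.ck 32 112 10 (by decide +kernel)

theorem c32 : CR 5 3 3 D cls mv 122 32 (Nat.succ 32) := CR.one 32 ((((r32_32).trans (r32_42)).trans ((r32_52).trans (r32_62))).trans (((r32_72).trans (r32_82)).trans ((r32_92).trans ((r32_102).trans (r32_112)))))

theorem cm32 : CR 5 3 3 D cls mv 122 32 33 := c32

end Vale.Agent.P355.H41.L5
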