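import Vale.Agent.P355.H41.L5.D
import Vale.Agent.P355.H41.F1.Rg

namespace Vale.Agent.P355.H41.L5

open Vale.Agent.P355 Vale.Agent.P355.H147 Vale.Agent.P355.H998.E Vale.Agent.P355.H41.F1

theorem r33_33 : RW 5 3 3 D cls mv 33 33 (Nat.add 33 10) := RW.ck 33 33 10 (by decide +kernel)

theorem r33_43 : RW 5 3 3 D cls mv 33 43 (Nat.add 43 10) := RW.ck 33 43 10 (by decide +kernel)

theorem r33_53 : RW 5 3 3 D cls mv 33 53 (Nat.add 53 10) := RW.ck 33 53 10 (by decide +kernel)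

theorem r33_63 : RW 5 3 3 D cls mv 33 63 (Nat.add 63 10) := RW.ck 33 63 10 (by decide +kernel)

theorem r33_73 : RW 5 3 3 D cls mv 33 73 (Nat.add 73 10) := RW.ck 33 73 10 (by decide +kernel)

theorem r33_83 : RW 5 3 3 D cls mv 33 83 (Nat.add 83 10) := RW.ck 33 83 10 (by decide +kernel)

theorem r33_93 : RW 5 3 3 D cls mv 33 93 (Nat.add 93 10) := RW.ck 33 93 10 (by decide +kernel)

theorem r33_103 : RW 5 3 3 D cls mv 33 103 (Nat.add 103 10) := RW.ck 33 103 10 (by decide +kernel)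

theorem r33_113 : RW 5 3 3 D cls mv 33 113 (Nat.add 113 9) := RW.ck 33 113 9 (by decide +kernel)

theorem c33 : CR 5 3 3 D cls mv 122 33 (Nat.succ 33) := CR.one 33 ((((r33_33).trans (r33_43)).trans ((r33_53).trans (r33_63))).trans (((r33_73).trans (r33_83)).trans ((r33_93).trans ((r33_103).trans (r33_113)))))

theorem cm33 : CR 5 3 3 D cls mv 122 33 34 := c33

end Vale.Agent.P355.H41.L5
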