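import Vale.Agent.P355.H41.L5.D
import Vale.Agent.P355.H41.F1.Rg

namespace Vale.Agent.P355.H41.L5

open Vale.Agent.P355 Vale.Agent.P355.H147 Vale.Agent.P355.H998.E Vale.Agent.P355.H41.F1

theorem r34_34 : RW 5 3 3 D cls mv 34 34 (Nat.add 34 10) := RW.ck 34 34 10 (by decide +kernel)

theorem r34_44 : RW 5 3 3 D cls mv 34 44 (Nat.add 44 10) := RW.ck 34 44 10 (by decide +kernel)

theorem r34_54 : RW 5 3 3 D cls mv 34 54 (Nat.add 54 10) := RW.ck 34 54 10 (by decide +kernel)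

theorem r34_64 : RW 5 3 3 D cls mv 34 64 (Nat.add 64 10) := RW.ck 34 64 10 (by decide +kernel)

theorem r34_74 : RW 5 3 3 D cls mv 34 74 (Nat.add 74 10) := RW.ck 34 74 10 (by decide +kernel)

theorem r34_84 : RW 5 3 3 D cls mv 34 84 (Nat.add 84 10) := RW.ck 34 84 10 (by decide +kernel)

theorem r34_94 : RW 5 3 3 D cls mv 34 94 (Nat.add 94 10) := RW.ck 34 94 10 (by decide +kernel)

theorem r34_104 : RW 5 3 3 D cls mv 34 104 (Nat.add 104 10) := RW.ck 34 104 10 (by decide +kernel)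

theorem r34_114 : RW 5 3 3 D cls mv 34 114 (Nat.add 114 8) := RW.ck 34 114 8 (by decide +kernel)

theorem c34 : CR 5 3 3 D cls mv 122 34 (Nat.succ 34) := CR.one 34 ((((r34_34).trans (r34_44)).trans ((r34_54).trans (r34_64))).trans (((r34_74).trans (r34_84)).trans ((r34_94).trans ((r34_104).trans (r34_114)))))

theorem cm34 : CR 5 3 3 D cls mv 122 34 35 := c34

end Vale.Agent.P355.H41.L5
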