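import Vale.Agent.P355.H41.L5.D
import Vale.Agent.P355.H41.F1.Rg

namespace Vale.Agent.P355.H41.L5

open Vale.Agent.P355 Vale.Agent.P355.H147 Vale.Agent.P355.H998.E Vale.Agent.P355.H41.F1

theorem r35_35 : RW 5 3 3 D cls mv 35 35 (Nat.add 35 10) := RW.ck 35 35 10 (by decide +kernel)

theorem r35_45 : RW 5 3 3 D cls mv 35 45 (Nat.add 45 10) := RW.ck 35 45 10 (by decide +kernel)

theorem r35_55 : RW 5 3 3 D cls mv 35 55 (Nat.add 55 10) := RW.ck 35 55 10 (by decide +kernel)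

theorem r35_65 : RW 5 3 3 D cls mv 35 65 (Nat.add 65 10) := RW.ck 35 65 10 (by decide +kernel)

theorem r35_75 : RW 5 3 3 D cls mv 35 75 (Nat.add 75 10) := RW.ck 35 75 10 (by decide +kernel)

theorem r35_85 : RW 5 3 3 D cls mv 35 85 (Nat.add 85 10) := RW.ck 35 85 10 (by decide +kernel)

theorem r35_95 : RW 5 3 3 D cls mv 35 95 (Nat.add 95 10) := RW.ck 35 95 10 (by decide +kernel)

theorem r35_105 : RW 5 3 3 D cls mv 35 105 (Nat.add 105 10) := RW.ck 35 105 10 (by decide +kernel)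

theorem r35_115 : RW 5 3 3 D cls mv 35 115 (Nat.add 115 7) := RW.ck 35 115 7 (by decide +kernel)

theorem c35 : CR 5 3 3 D cls mv 122 35 (Nat.succ 35) := CR.one 35 ((((r35_35).trans (r35_45)).trans ((r35_55).trans (r35_65))).trans (((r35_75).trans (r35_85)).trans ((r35_95).trans ((r35_105).trans (r35_115)))))

theorem cm35 : CR 5 3 3 D cls mv 122 35 36 := c35

end Vale.Agent.P355.H41.L5
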