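import Vale.Agent.P355.H41.L5.D
import Vale.Agent.P355.H41.F1.Rg

namespace Vale.Agent.P355.H41.L5

open Vale.Agent.P355 Vale.Agent.P355.H147 Vale.Agent.P355.H998.E Vale.Agent.P355.H41.F1

theorem r36_36 : RW 5 3 3 D cls mv 36 36 (Nat.add 36 10) := RW.ck 36 36 10 (by decide +kernel)

theorem r36_46 : RW 5 3 3 D cls mv 36 46 (Nat.add 46 10) := RW.ck 36 46 10 (by decide +kernel)

theorem r36_56 : RW 5 3 3 D cls mv 36 56 (Nat.add 56 10) := RW.ck 36 56 10 (by decide +kernel)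

theorem r36_66 : RW 5 3 3 D cls mv 36 66 (Nat.add 66 10) := RW.ck 36 66 10 (by decide +kernel)

theorem r36_76 : RW 5 3 3 D cls mv 36 76 (Nat.add 76 10) := RW.ck 36 76 10 (by decide +kernel)

theorem r36_86 : RW 5 3 3 D cls mv 36 86 (Nat.add 86 10) := RW.ck 36 86 10 (by decide +kernel)

theorem r36_96 : RW 5 3 3 D cls mv 36 96 (Nat.add 96 10) := RW.ck 36 96 10 (by decide +kernel)

theorem r36_106 : RW 5 3 3 D cls mv 36 106 (Nat.add 106 10) := RW.ck 36 106 10 (by decide +kernel)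

theorem r36_116 : RW 5 3 3 D cls mv 36 116 (Nat.add 116 6) := RW.ck 36 116 6 (by decide +kernel)

theorem c36 : CR 5 3 3 D cls mv 122 36 (Nat.succ 36) := CR.one 36 ((((r36_36).trans (r36_46)).trans ((r36_56).trans (r36_66))).trans (((r36_76).trans (r36_86)).trans ((r36_96).trans ((r36_106).trans (r36_116)))))

theorem cm36 : CR 5 3 3 D cls mv 122 36 37 := c36

end Vale.Agent.P355.H41.L5
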