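import Vale.Agent.P355.H41.L5.D
import Vale.Agent.P355.H41.F1.Rg

namespace Vale.Agent.P355.H41.L5

open Vale.Agent.P355 Vale.Agent.P355.H147 Vale.Agent.P355.H998.E Vale.Agent.P355.H41.F1

theorem r37_37 : RW 5 3 3 D cls mv 37 37 (Nat.add 37 10) := RW.ck 37 37 10 (by decide +kernel)

theorem r37_47 : RW 5 3 3 D cls mv 37 47 (Nat.add 47 10) := RW.ck 37 47 10 (by decide +kernel)

theorem r37_57 : RW 5 3 3 D cls mv 37 57 (Nat.add 57 10) := RW.ck 37 57 10 (by decide +kernel)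

theorem r37_67 : RW 5 3 3 D cls mv 37 67 (Nat.add 67 10) := RW.ck 37 67 10 (by decide +kernel)

theorem r37_77 : RW 5 3 3 D cls mv 37 77 (Nat.add 77 10) := RW.ck 37 77 10 (by decide +kernel)

theorem r37_87 : RW 5 3 3 D cls mv 37 87 (Nat.add 87 10) := RW.ck 37 87 10 (by decide +kernel)

theorem r37_97 : RW 5 3 3 D cls mv 37 97 (Nat.add 97 10) := RW.ck 37 97 10 (by decide +kernel)

theorem r37_107 : RW 5 3 3 D cls mv 37 107 (Nat.add 107 10) := RW.ck 37 107 10 (by decide +kernel)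

theorem r37_117 : RW 5 3 3 D cls mv 37 117 (Nat.add 117 5) := RW.ck 37 117 5 (by decide +kernel)

theorem c37 : CR 5 3 3 D cls mv 122 37 (Nat.succ 37) := CR.one 37 ((((r37_37).trans (r37_47)).trans ((r37_57).trans (r37_67))).trans (((r37_77).trans (r37_87)).trans ((r37_97).trans ((r37_107).trans (r37_117)))))

theorem cm37 : CR 5 3 3 D cls mv 122 37 38 := c37

end Vale.Agent.P355.H41.L5
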