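import Vale.Agent.P355.H41.L5.D
import Vale.Agent.P355.H41.F1.Rg

namespace Vale.Agent.P355.H41.L5

open Vale.Agent.P355 Vale.Agent.P355.H147 Vale.Agent.P355.H998.E Vale.Agent.P355.H41.F1

theorem r38_38 : RW 5 3 3 D cls mv 38 38 (Nat.add 38 10) := RW.ck 38 38 10 (by decide +kernel)

theorem r38_48 : RW 5 3 3 D cls mv 38 48 (Nat.add 48 10) := RW.ck 38 48 10 (by decide +kernel)

theorem r38_58 : RW 5 3 3 D cls mv 38 58 (Nat.add 58 10) := RW.ck 38 58 10 (by decide +kernel)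

theorem r38_68 : RW 5 3 3 D cls mv 38 68 (Nat.add 68 10) := RW.ck 38 68 10 (by decide +kernel)

theorem r38_78 : RW 5 3 3 D cls mv 38 78 (Nat.add 78 10) := RW.ck 38 78 10 (by decide +kernel)

theorem r38_88 : RW 5 3 3 D cls mv 38 88 (Nat.add 88 10) := RW.ck 38 88 10 (by decide +kernel)

theorem r38_98 : RW 5 3 3 D cls mv 38 98 (Nat.add 98 10) := RW.ck 38 98 10 (by decide +kernel)

theorem r38_108 : RW 5 3 3 D cls mv 38 108 (Nat.add 108 10) := RW.ck 38 108 10 (by decide +kernel)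

theorem r38_118 : RW 5 3 3 D cls mv 38 118 (Nat.add 118 4) := RW.ck 38 118 4 (by decide +kernel)

theorem c38 : CR 5 3 3 D cls mv 122 38 (Nat.succ 38) := CR.one 38 ((((r38_38).trans (r38_48)).trans ((r38_58).trans (r38_68))).trans (((r38_78).trans (r38_88)).trans ((r38_98).trans ((r38_108).trans (r38_118)))))

theorem cm38 : CR 5 3 3 D cls mv 122 38 39 := c38

end Vale.Agent.P355.H41.L5
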