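import Vale.Agent.P355.H41.L5.D
import Vale.Agent.P355.H41.F1.Rg

namespace Vale.Agent.P355.H41.L5

open Vale.Agent.P355 Vale.Agent.P355.H147 Vale.Agent.P355.H998.E Vale.Agent.P355.H41.F1

theorem r39_39 : RW 5 3 3 D cls mv 39 39 (Nat.add 39 10) := RW.ck 39 39 10 (by decide +kernel)

theorem r39_49 : RW 5 3 3 D cls mv 39 49 (Nat.add 49 10) := RW.ck 39 49 10 (by decide +kernel)

theorem r39_59 : RW 5 3 3 D cls mv 39 59 (Nat.add 59 10) := RW.ck 39 59 10 (by decide +kernel)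

theorem r39_69 : RW 5 3 3 D cls mv 39 69 (Nat.add 69 10) := RW.ck 39 69 10 (by decide +kernel)

theorem r39_79 : RW 5 3 3 D cls mv 39 79 (Nat.add 79 10) := RW.ck 39 79 10 (by decide +kernel)

theorem r39_89 : RW 5 3 3 D cls mv 39 89 (Nat.add 89 10) := RW.ck 39 89 10 (by decide +kernel)

theorem r39_99 : RW 5 3 3 D cls mv 39 99 (Nat.add 99 10) := RW.ck 39 99 10 (by decide +kernel)

theorem r39_109 : RW 5 3 3 D cls mv 39 109 (Nat.add 109 10) := RW.ck 39 109 10 (by decide +kernel)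

theorem r39_119 : RW 5 3 3 D cls mv 39 119 (Nat.add 119 3) := RW.ck 39 119 3 (by decide +kernel)

theorem c39 : CR 5 3 3 D cls mv 122 39 (Nat.succ 39) := CR.one 39 ((((r39_39).trans (r39_49)).trans ((r39_59).trans (r39_69))).trans (((r39_79).trans (r39_89)).trans ((r39_99).trans ((r39_109).trans (r39_119)))))

theorem cm39 : CR 5 3 3 D cls mv 122 39 40 := c39

end Vale.Agent.P355.H41.L5
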