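import Vale.Agent.P355.H41.L5.D
import Vale.Agent.P355.H41.F1.Rg

namespace Vale.Agent.P355.H41.L5

open Vale.Agent.P355 Vale.Agent.P355.H147 Vale.Agent.P355.H998.E Vale.Agent.P355.H41.F1

theorem r4_4 : RW 5 3 3 D cls mv 4 4 (Nat.add 4 10) := RW.ck 4 4 10 (by decide +kernel)

theorem r4_14 : RW 5 3 3 D cls mv 4 14 (Nat.add 14 10) := RW.ck 4 14 10 (by decide +kernel)

theorem r4_24 : RW 5 3 3 D cls mv 4 24 (Nat.add 24 10) := RW.ck 4 24 10 (by decide +kernel)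

theorem r4_34 : RW 5 3 3 D cls mv 4 34 (Nat.add 34 10) := RW.ck 4 34 10 (by decide +kernel)

theorem r4_44 : RW 5 3 3 D cls mv 4 44 (Nat.add 44 10) := RW.ck 4 44 10 (by decide +kernel)

theorem r4_54 : RW 5 3 3 D cls mv 4 54 (Nat.add 54 10) := RW.ck 4 54 10 (by decide +kernel)

theorem r4_64 : RW 5 3 3 D cls mv 4 64 (Nat.add 64 10) := RW.ck 4 64 10 (by decide +kernel)

theorem r4_74 : RW 5 3 3 D cls mv 4 74 (Nat.add 74 10) := RW.ck 4 74 10 (by decide +kernel)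

theorem r4_84 : RW 5 3 3 D cls mv 4 84 (Nat.add 84 10) := RW.ck 4 84 10 (by decide +kernel)

theorem r4_94 : RW 5 3 3 D cls mv 4 94 (Nat.add 94 10) := RW.ck 4 94 10 (by decide +kernel)

theorem r4_104 : RW 5 3 3 D cls mv 4 104 (Nat.add 104 10) := RW.ck 4 104 10 (by decide +kernel)

theorem r4_114 : RW 5 3 3 D cls mv 4 114 (Nat.add 114 8) := RW.ck 4 114 8 (by decide +kernel)

theorem c4 : CR 5 3 3 D cls mv 122 4 (Nat.succ 4) := CR.one 4 ((((r4_4).trans ((r4_14).trans (r4_24))).trans ((r4_34).trans ((r4_44).trans (r4_54)))).trans (((r4_64).trans ((r4_74).trans (r4_84))).trans ((r4_94).trans ((r4_104).trans (r4_114)))))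

theorem cm4 : CR 5 3 3 D cls mv 122 4 5 := c4

end Vale.Agent.P355.H41.L5
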