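import Vale.Agent.P355.H41.L5.D
import Vale.Agent.P355.H41.F1.Rg

namespace Vale.Agent.P355.H41.L5

open Vale.Agent.P355 Vale.Agent.P355.H147 Vale.Agent.P355.H998.E Vale.Agent.P355.H41.F1

theorem r40_40 : RW 5 3 3 D cls mv 40 40 (Nat.add 40 10) := RW.ck 40 40 10 (by decide +kernel)

theorem r40_50 : RW 5 3 3 D cls mv 40 50 (Nat.add 50 10) := RW.ck 40 50 10 (by decide +kernel)

theorem r40_60 : RW 5 3 3 D cls mv 40 60 (Nat.add 60 10) := RW.ck 40 60 10 (by decide +kernel)

theorem r40_70 : RW 5 3 3 D cls mv 40 70 (Nat.add 70 10) := RW.ck 40 70 10 (by decide +kernel)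

theorem r40_80 : RW 5 3 3 D cls mv 40 80 (Nat.add 80 10) := RW.ck 40 80 10 (by decide +kernel)

theorem r40_90 : RW 5 3 3 D cls mv 40 90 (Nat.add 90 10) := RW.ck 40 90 10 (by decide +kernel)

theorem r40_100 : RW 5 3 3 D cls mv 40 100 (Nat.add 100 10) := RW.ck 40 100 10 (by decide +kernel)

theorem r40_110 : RW 5 3 3 D cls mv 40 110 (Nat.add 110 10) := RW.ck 40 110 10 (by decide +kernel)

theorem r40_120 : RW 5 3 3 D cls mv 40 120 (Nat.add 120 2) := RW.ck 40 120 2 (by decide +kernel)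

theorem c40 : CR 5 3 3 D cls mv 122 40 (Nat.succ 40) := CR.one 40 ((((r40_40).trans (r40_50)).trans ((r40_60).trans (r40_70))).trans (((r40_80).trans (r40_90)).trans ((r40_100).trans ((r40_110).trans (r40_120)))))

theorem cm40 : CR 5 3 3 D cls mv 122 40 41 := c40

end Vale.Agent.P355.H41.L5
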