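import Vale.Agent.P355.H41.L5.D
import Vale.Agent.P355.H41.F1.Rg

namespace Vale.Agent.P355.H41.L5

open Vale.Agent.P355 Vale.Agent.P355.H147 Vale.Agent.P355.H998.E Vale.Agent.P355.H41.F1

theorem r41_41 : RW 5 3 3 D cls mv 41 41 (Nat.add 41 10) := RW.ck 41 41 10 (by decide +kernel)

theorem r41_51 : RW 5 3 3 D cls mv 41 51 (Nat.add 51 10) := RW.ck 41 51 10 (by decide +kernel)

theorem r41_61 : RW 5 3 3 D cls mv 41 61 (Nat.add 61 10) := RW.ck 41 61 10 (by decide +kernel)

theorem r41_71 : RW 5 3 3 D cls mv 41 71 (Nat.add 71 10) := RW.ck 41 71 10 (by decide +kernel)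

theorem r41_81 : RW 5 3 3 D cls mv 41 81 (Nat.add 81 10) := RW.ck 41 81 10 (by decide +kernel)

theorem r41_91 : RW 5 3 3 D cls mv 41 91 (Nat.add 91 10) := RW.ck 41 91 10 (by decide +kernel)

theorem r41_101 : RW 5 3 3 D cls mv 41 101 (Nat.add 101 10) := RW.ck 41 101 10 (by decide +kernel)

theorem r41_111 : RW 5 3 3 D cls mv 41 111 (Nat.add 111 10) := RW.ck 41 111 10 (by decide +kernel)

theorem r41_121 : RW 5 3 3 D cls mv 41 121 (Nat.add 121 1) := RW.ck 41 121 1 (by decide +kernel)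

theorem c41 : CR 5 3 3 D cls mv 122 41 (Nat.succ 41) := CR.one 41 ((((r41_41).trans (r41_51)).trans ((r41_61).trans (r41_71))).trans (((r41_81).trans (r41_91)).trans ((r41_101).trans ((r41_111).trans (r41_121)))))

theorem cm41 : CR 5 3 3 D cls mv 122 41 42 := c41

end Vale.Agent.P355.H41.L5
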