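import Vale.Agent.P355.H41.L5.D
import Vale.Agent.P355.H41.F1.Rg

namespace Vale.Agent.P355.H41.L5

open Vale.Agent.P355 Vale.Agent.P355.H147 Vale.Agent.P355.H998.E Vale.Agent.P355.H41.F1

theorem r42_42 : RW 5 3 3 D cls mv 42 42 (Nat.add 42 10) := RW.ck 42 42 10 (by decide +kernel)

theorem r42_52 : RW 5 3 3 D cls mv 42 52 (Nat.add 52 10) := RW.ck 42 52 10 (by decide +kernel)

theorem r42_62 : RW 5 3 3 D cls mv 42 62 (Nat.add 62 10) := RW.ck 42 62 10 (by decide +kernel)

theorem r42_72 : RW 5 3 3 D cls mv 42 72 (Nat.add 72 10) := RW.ck 42 72 10 (by decide +kernel)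

theorem r42_82 : RW 5 3 3 D cls mv 42 82 (Nat.add 82 10) := RW.ck 42 82 10 (by decide +kernel)

theorem r42_92 : RW 5 3 3 D cls mv 42 92 (Nat.add 92 10) := RW.ck 42 92 10 (by decide +kernel)

theorem r42_102 : RW 5 3 3 D cls mv 42 102 (Nat.add 102 10) := RW.ck 42 102 10 (by decide +kernel)

theorem r42_112 : RW 5 3 3 D cls mv 42 112 (Nat.add 112 10) := RW.ck 42 112 10 (by decide +kernel)

theorem c42 : CR 5 3 3 D cls mv 122 42 (Nat.succ 42) := CR.one 42 ((((r42_42).trans (r42_52)).trans ((r42_62).trans (r42_72))).trans (((r42_82).trans (r42_92)).trans ((r42_102).trans (r42_112))))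

theorem cm42 : CR 5 3 3 D cls mv 122 42 43 := c42

end Vale.Agent.P355.H41.L5
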