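import Vale.Agent.P355.H41.L5.D
import Vale.Agent.P355.H41.F1.Rg

namespace Vale.Agent.P355.H41.L5

open Vale.Agent.P355 Vale.Agent.P355.H147 Vale.Agent.P355.H998.E Vale.Agent.P355.H41.F1

theorem r43_43 : RW 5 3 3 D cls mv 43 43 (Nat.add 43 10) := RW.ck 43 43 10 (by decide +kernel)

theorem r43_53 : RW 5 3 3 D cls mv 43 53 (Nat.add 53 10) := RW.ck 43 53 10 (by decide +kernel)

theorem r43_63 : RW 5 3 3 D cls mv 43 63 (Nat.add 63 10) := RW.ck 43 63 10 (by decide +kernel)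

theorem r43_73 : RW 5 3 3 D cls mv 43 73 (Nat.add 73 10) := RW.ck 43 73 10 (by decide +kernel)

theorem r43_83 : RW 5 3 3 D cls mv 43 83 (Nat.add 83 10) := RW.ck 43 83 10 (by decide +kernel)

theorem r43_93 : RW 5 3 3 D cls mv 43 93 (Nat.add 93 10) := RW.ck 43 93 10 (by decide +kernel)

theorem r43_103 : RW 5 3 3 D cls mv 43 103 (Nat.add 103 10) := RW.ck 43 103 10 (by decide +kernel)

theorem r43_113 : RW 5 3 3 D cls mv 43 113 (Nat.add 113 9) := RW.ck 43 113 9 (by decide +kernel)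

theorem c43 : CR 5 3 3 D cls mv 122 43 (Nat.succ 43) := CR.one 43 ((((r43_43).trans (r43_53)).trans ((r43_63).trans (r43_73))).trans (((r43_83).trans (r43_93)).trans ((r43_103).trans (r43_113))))

theorem cm43 : CR 5 3 3 D cls mv 122 43 44 := c43

end Vale.Agent.P355.H41.L5
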