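import Vale.Agent.P355.H41.L5.D
import Vale.Agent.P355.H41.F1.Rg

namespace Vale.Agent.P355.H41.L5

open Vale.Agent.P355 Vale.Agent.P355.H147 Vale.Agent.P355.H998.E Vale.Agent.P355.H41.F1

theorem r44_44 : RW 5 3 3 D cls mv 44 44 (Nat.add 44 10) := RW.ck 44 44 10 (by decide +kernel)

theorem r44_54 : RW 5 3 3 D cls mv 44 54 (Nat.add 54 10) := RW.ck 44 54 10 (by decide +kernel)

theorem r44_64 : RW 5 3 3 D cls mv 44 64 (Nat.add 64 10) := RW.ck 44 64 10 (by decide +kernel)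

theorem r44_74 : RW 5 3 3 D cls mv 44 74 (Nat.add 74 10) := RW.ck 44 74 10 (by decide +kernel)

theorem r44_84 : RW 5 3 3 D cls mv 44 84 (Nat.add 84 10) := RW.ck 44 84 10 (by decide +kernel)

theorem r44_94 : RW 5 3 3 D cls mv 44 94 (Nat.add 94 10) := RW.ck 44 94 10 (by decide +kernel)

theorem r44_104 : RW 5 3 3 D cls mv 44 104 (Nat.add 104 10) := RW.ck 44 104 10 (by decide +kernel)

theorem r44_114 : RW 5 3 3 D cls mv 44 114 (Nat.add 114 8) := RW.ck 44 114 8 (by decide +kernel)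

theorem c44 : CR 5 3 3 D cls mv 122 44 (Nat.succ 44) := CR.one 44 ((((r44_44).trans (r44_54)).trans ((r44_64).trans (r44_74))).trans (((r44_84).trans (r44_94)).trans ((r44_104).trans (r44_114))))

theorem cm44 : CR 5 3 3 D cls mv 122 44 45 := c44

end Vale.Agent.P355.H41.L5
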