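import Vale.Agent.P355.H41.L5.D
import Vale.Agent.P355.H41.F1.Rg

namespace Vale.Agent.P355.H41.L5

open Vale.Agent.P355 Vale.Agent.P355.H147 Vale.Agent.P355.H998.E Vale.Agent.P355.H41.F1

theorem r45_45 : RW 5 3 3 D cls mv 45 45 (Nat.add 45 10) := RW.ck 45 45 10 (by decide +kernel)

theorem r45_55 : RW 5 3 3 D cls mv 45 55 (Nat.add 55 10) := RW.ck 45 55 10 (by decide +kernel)

theorem r45_65 : RW 5 3 3 D cls mv 45 65 (Nat.add 65 10) := RW.ck 45 65 10 (by decide +kernel)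

theorem r45_75 : RW 5 3 3 D cls mv 45 75 (Nat.add 75 10) := RW.ck 45 75 10 (by decide +kernel)

theorem r45_85 : RW 5 3 3 D cls mv 45 85 (Nat.add 85 10) := RW.ck 45 85 10 (by decide +kernel)

theorem r45_95 : RW 5 3 3 D cls mv 45 95 (Nat.add 95 10) := RW.ck 45 95 10 (by decide +kernel)

theorem r45_105 : RW 5 3 3 D cls mv 45 105 (Nat.add 105 10) := RW.ck 45 105 10 (by decide +kernel)

theorem r45_115 : RW 5 3 3 D cls mv 45 115 (Nat.add 115 7) := RW.ck 45 115 7 (by decide +kernel)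

theorem c45 : CR 5 3 3 D cls mv 122 45 (Nat.succ 45) := CR.one 45 ((((r45_45).trans (r45_55)).trans ((r45_65).trans (r45_75))).trans (((r45_85).trans (r45_95)).trans ((r45_105).trans (r45_115))))

theorem cm45 : CR 5 3 3 D cls mv 122 45 46 := c45

end Vale.Agent.P355.H41.L5
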