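import Vale.Agent.P355.H41.L5.D
import Vale.Agent.P355.H41.F1.Rg

namespace Vale.Agent.P355.H41.L5

open Vale.Agent.P355 Vale.Agent.P355.H147 Vale.Agent.P355.H998.E Vale.Agent.P355.H41.F1

theorem r46_46 : RW 5 3 3 D cls mv 46 46 (Nat.add 46 10) := RW.ck 46 46 10 (by decide +kernel)

theorem r46_56 : RW 5 3 3 D cls mv 46 56 (Nat.add 56 10) := RW.ck 46 56 10 (by decide +kernel)

theorem r46_66 : RW 5 3 3 D cls mv 46 66 (Nat.add 66 10) := RW.ck 46 66 10 (by decide +kernel)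

theorem r46_76 : RW 5 3 3 D cls mv 46 76 (Nat.add 76 10) := RW.ck 46 76 10 (by decide +kernel)

theorem r46_86 : RW 5 3 3 D cls mv 46 86 (Nat.add 86 10) := RW.ck 46 86 10 (by decide +kernel)

theorem r46_96 : RW 5 3 3 D cls mv 46 96 (Nat.add 96 10) := RW.ck 46 96 10 (by decide +kernel)

theorem r46_106 : RW 5 3 3 D cls mv 46 106 (Nat.add 106 10) := RW.ck 46 106 10 (by decide +kernel)

theorem r46_116 : RW 5 3 3 D cls mv 46 116 (Nat.add 116 6) := RW.ck 46 116 6 (by decide +kernel)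

theorem c46 : CR 5 3 3 D cls mv 122 46 (Nat.succ 46) := CR.one 46 ((((r46_46).trans (r46_56)).trans ((r46_66).trans (r46_76))).trans (((r46_86).trans (r46_96)).trans ((r46_106).trans (r46_116))))

theorem cm46 : CR 5 3 3 D cls mv 122 46 47 := c46

end Vale.Agent.P355.H41.L5
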