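import Vale.Agent.P355.H41.L5.D
import Vale.Agent.P355.H41.F1.Rg

namespace Vale.Agent.P355.H41.L5

open Vale.Agent.P355 Vale.Agent.P355.H147 Vale.Agent.P355.H998.E Vale.Agent.P355.H41.F1

theorem r47_47 : RW 5 3 3 D cls mv 47 47 (Nat.add 47 10) := RW.ck 47 47 10 (by decide +kernel)

theorem r47_57 : RW 5 3 3 D cls mv 47 57 (Nat.add 57 10) := RW.ck 47 57 10 (by decide +kernel)

theorem r47_67 : RW 5 3 3 D cls mv 47 67 (Nat.add 67 10) := RW.ck 47 67 10 (by decide +kernel)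

theorem r47_77 : RW 5 3 3 D cls mv 47 77 (Nat.add 77 10) := RW.ck 47 77 10 (by decide +kernel)

theorem r47_87 : RW 5 3 3 D cls mv 47 87 (Nat.add 87 10) := RW.ck 47 87 10 (by decide +kernel)

theorem r47_97 : RW 5 3 3 D cls mv 47 97 (Nat.add 97 10) := RW.ck 47 97 10 (by decide +kernel)

theorem r47_107 : RW 5 3 3 D cls mv 47 107 (Nat.add 107 10) := RW.ck 47 107 10 (by decide +kernel)

theorem r47_117 : RW 5 3 3 D cls mv 47 117 (Nat.add 117 5) := RW.ck 47 117 5 (by decide +kernel)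

theorem c47 : CR 5 3 3 D cls mv 122 47 (Nat.succ 47) := CR.one 47 ((((r47_47).trans (r47_57)).trans ((r47_67).trans (r47_77))).trans (((r47_87).trans (r47_97)).trans ((r47_107).trans (r47_117))))

theorem cm47 : CR 5 3 3 D cls mv 122 47 48 := c47

end Vale.Agent.P355.H41.L5
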