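import Vale.Agent.P355.H41.L5.D
import Vale.Agent.P355.H41.F1.Rg

namespace Vale.Agent.P355.H41.L5

open Vale.Agent.P355 Vale.Agent.P355.H147 Vale.Agent.P355.H998.E Vale.Agent.P355.H41.F1

theorem r48_48 : RW 5 3 3 D cls mv 48 48 (Nat.add 48 10) := RW.ck 48 48 10 (by decide +kernel)

theorem r48_58 : RW 5 3 3 D cls mv 48 58 (Nat.add 58 10) := RW.ck 48 58 10 (by decide +kernel)

theorem r48_68 : RW 5 3 3 D cls mv 48 68 (Nat.add 68 10) := RW.ck 48 68 10 (by decide +kernel)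

theorem r48_78 : RW 5 3 3 D cls mv 48 78 (Nat.add 78 10) := RW.ck 48 78 10 (by decide +kernel)

theorem r48_88 : RW 5 3 3 D cls mv 48 88 (Nat.add 88 10) := RW.ck 48 88 10 (by decide +kernel)

theorem r48_98 : RW 5 3 3 D cls mv 48 98 (Nat.add 98 10) := RW.ck 48 98 10 (by decide +kernel)

theorem r48_108 : RW 5 3 3 D cls mv 48 108 (Nat.add 108 10) := RW.ck 48 108 10 (by decide +kernel)

theorem r48_118 : RW 5 3 3 D cls mv 48 118 (Nat.add 118 4) := RW.ck 48 118 4 (by decide +kernel)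

theorem c48 : CR 5 3 3 D cls mv 122 48 (Nat.succ 48) := CR.one 48 ((((r48_48).trans (r48_58)).trans ((r48_68).trans (r48_78))).trans (((r48_88).trans (r48_98)).trans ((r48_108).trans (r48_118))))

theorem cm48 : CR 5 3 3 D cls mv 122 48 49 := c48

end Vale.Agent.P355.H41.L5
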