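import Vale.Agent.P355.H41.L5.D
import Vale.Agent.P355.H41.F1.Rg

namespace Vale.Agent.P355.H41.L5

open Vale.Agent.P355 Vale.Agent.P355.H147 Vale.Agent.P355.H998.E Vale.Agent.P355.H41.F1

theorem r49_49 : RW 5 3 3 D cls mv 49 49 (Nat.add 49 10) := RW.ck 49 49 10 (by decide +kernel)

theorem r49_59 : RW 5 3 3 D cls mv 49 59 (Nat.add 59 10) := RW.ck 49 59 10 (by decide +kernel)

theorem r49_69 : RW 5 3 3 D cls mv 49 69 (Nat.add 69 10) := RW.ck 49 69 10 (by decide +kernel)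

theorem r49_79 : RW 5 3 3 D cls mv 49 79 (Nat.add 79 10) := RW.ck 49 79 10 (by decide +kernel)

theorem r49_89 : RW 5 3 3 D cls mv 49 89 (Nat.add 89 10) := RW.ck 49 89 10 (by decide +kernel)

theorem r49_99 : RW 5 3 3 D cls mv 49 99 (Nat.add 99 10) := RW.ck 49 99 10 (by decide +kernel)

theorem r49_109 : RW 5 3 3 D cls mv 49 109 (Nat.add 109 10) := RW.ck 49 109 10 (by decide +kernel)

theorem r49_119 : RW 5 3 3 D cls mv 49 119 (Nat.add 119 3) := RW.ck 49 119 3 (by decide +kernel)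

theorem c49 : CR 5 3 3 D cls mv 122 49 (Nat.succ 49) := CR.one 49 ((((r49_49).trans (r49_59)).trans ((r49_69).trans (r49_79))).trans (((r49_89).trans (r49_99)).trans ((r49_109).trans (r49_119))))

theorem cm49 : CR 5 3 3 D cls mv 122 49 50 := c49

end Vale.Agent.P355.H41.L5
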