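import Vale.Agent.P355.H41.L5.D
import Vale.Agent.P355.H41.F1.Rg

namespace Vale.Agent.P355.H41.L5

open Vale.Agent.P355 Vale.Agent.P355.H147 Vale.Agent.P355.H998.E Vale.Agent.P355.H41.F1

theorem r5_5 : RW 5 3 3 D cls mv 5 5 (Nat.add 5 10) := RW.ck 5 5 10 (by decide +kernel)

theorem r5_15 : RW 5 3 3 D cls mv 5 15 (Nat.add 15 10) := RW.ck 5 15 10 (by decide +kernel)

theorem r5_25 : RW 5 3 3 D cls mv 5 25 (Nat.add 25 10) := RW.ck 5 25 10 (by decide +kernel)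

theorem r5_35 : RW 5 3 3 D cls mv 5 35 (Nat.add 35 10) := RW.ck 5 35 10 (by decide +kernel)

theorem r5_45 : RW 5 3 3 D cls mv 5 45 (Nat.add 45 10) := RW.ck 5 45 10 (by decide +kernel)

theorem r5_55 : RW 5 3 3 D cls mv 5 55 (Nat.add 55 10) := RW.ck 5 55 10 (by decide +kernel)

theorem r5_65 : RW 5 3 3 D cls mv 5 65 (Nat.add 65 10) := RW.ck 5 65 10 (by decide +kernel)

theorem r5_75 : RW 5 3 3 D cls mv 5 75 (Nat.add 75 10) := RW.ck 5 75 10 (by decide +kernel)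

theorem r5_85 : RW 5 3 3 D cls mv 5 85 (Nat.add 85 10) := RW.ck 5 85 10 (by decide +kernel)

theorem r5_95 : RW 5 3 3 D cls mv 5 95 (Nat.add 95 10) := RW.ck 5 95 10 (by decide +kernel)

theorem r5_105 : RW 5 3 3 D cls mv 5 105 (Nat.add 105 10) := RW.ck 5 105 10 (by decide +kernel)

theorem r5_115 : RW 5 3 3 D cls mv 5 115 (Nat.add 115 7) := RW.ck 5 115 7 (by decide +kernel)

theorem c5 : CR 5 3 3 D cls mv 122 5 (Nat.succ 5) := CR.one 5 ((((r5_5).trans ((r5_15).trans (r5_25))).trans ((r5_35).trans ((r5_45).trans (r5_55)))).trans (((r5_65).trans ((r5_75).trans (r5_85))).trans ((r5_95).trans ((r5_105).trans (r5_115)))))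

theorem cm5 : CR 5 3 3 D cls mv 122 5 6 := c5

end Vale.Agent.P355.H41.L5
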