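import Vale.Agent.P355.H41.L5.D
import Vale.Agent.P355.H41.F1.Rg

namespace Vale.Agent.P355.H41.L5

open Vale.Agent.P355 Vale.Agent.P355.H147 Vale.Agent.P355.H998.E Vale.Agent.P355.H41.F1

theorem r50_50 : RW 5 3 3 D cls mv 50 50 (Nat.add 50 10) := RW.ck 50 50 10 (by decide +kernel)

theorem r50_60 : RW 5 3 3 D cls mv 50 60 (Nat.add 60 10) := RW.ck 50 60 10 (by decide +kernel)

theorem r50_70 : RW 5 3 3 D cls mv 50 70 (Nat.add 70 10) := RW.ck 50 70 10 (by decide +kernel)

theorem r50_80 : RW 5 3 3 D cls mv 50 80 (Nat.add 80 10) := RW.ck 50 80 10 (by decide +kernel)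

theorem r50_90 : RW 5 3 3 D cls mv 50 90 (Nat.add 90 10) := RW.ck 50 90 10 (by decide +kernel)

theorem r50_100 : RW 5 3 3 D cls mv 50 100 (Nat.add 100 10) := RW.ck 50 100 10 (by decide +kernel)

theorem r50_110 : RW 5 3 3 D cls mv 50 110 (Nat.add 110 10) := RW.ck 50 110 10 (by decide +kernel)

theorem r50_120 : RW 5 3 3 D cls mv 50 120 (Nat.add 120 2) := RW.ck 50 120 2 (by decide +kernel)

theorem c50 : CR 5 3 3 D cls mv 122 50 (Nat.succ 50) := CR.one 50 ((((r50_50).trans (r50_60)).trans ((r50_70).trans (r50_80))).trans (((r50_90).trans (r50_100)).trans ((r50_110).trans (r50_120))))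

theorem cm50 : CR 5 3 3 D cls mv 122 50 51 := c50

end Vale.Agent.P355.H41.L5
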