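import Vale.Agent.P355.H41.L5.D
import Vale.Agent.P355.H41.F1.Rg

namespace Vale.Agent.P355.H41.L5

open Vale.Agent.P355 Vale.Agent.P355.H147 Vale.Agent.P355.H998.E Vale.Agent.P355.H41.F1

theorem r51_51 : RW 5 3 3 D cls mv 51 51 (Nat.add 51 10) := RW.ck 51 51 10 (by decide +kernel)

theorem r51_61 : RW 5 3 3 D cls mv 51 61 (Nat.add 61 10) := RW.ck 51 61 10 (by decide +kernel)

theorem r51_71 : RW 5 3 3 D cls mv 51 71 (Nat.add 71 10) := RW.ck 51 71 10 (by decide +kernel)

theorem r51_81 : RW 5 3 3 D cls mv 51 81 (Nat.add 81 10) := RW.ck 51 81 10 (by decide +kernel)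

theorem r51_91 : RW 5 3 3 D cls mv 51 91 (Nat.add 91 10) := RW.ck 51 91 10 (by decide +kernel)

theorem r51_101 : RW 5 3 3 D cls mv 51 101 (Nat.add 101 10) := RW.ck 51 101 10 (by decide +kernel)

theorem r51_111 : RW 5 3 3 D cls mv 51 111 (Nat.add 111 10) := RW.ck 51 111 10 (by decide +kernel)

theorem r51_121 : RW 5 3 3 D cls mv 51 121 (Nat.add 121 1) := RW.ck 51 121 1 (by decide +kernel)

theorem c51 : CR 5 3 3 D cls mv 122 51 (Nat.succ 51) := CR.one 51 ((((r51_51).trans (r51_61)).trans ((r51_71).trans (r51_81))).trans (((r51_91).trans (r51_101)).trans ((r51_111).trans (r51_121))))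

theorem cm51 : CR 5 3 3 D cls mv 122 51 52 := c51

end Vale.Agent.P355.H41.L5
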