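import Vale.Agent.P355.H41.L5.D
import Vale.Agent.P355.H41.F1.Rg

namespace Vale.Agent.P355.H41.L5

open Vale.Agent.P355 Vale.Agent.P355.H147 Vale.Agent.P355.H998.E Vale.Agent.P355.H41.F1

theorem r52_52 : RW 5 3 3 D cls mv 52 52 (Nat.add 52 10) := RW.ck 52 52 10 (by decide +kernel)

theorem r52_62 : RW 5 3 3 D cls mv 52 62 (Nat.add 62 10) := RW.ck 52 62 10 (by decide +kernel)

theorem r52_72 : RW 5 3 3 D cls mv 52 72 (Nat.add 72 10) := RW.ck 52 72 10 (by decide +kernel)

theorem r52_82 : RW 5 3 3 D cls mv 52 82 (Nat.add 82 10) := RW.ck 52 82 10 (by decide +kernel)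

theorem r52_92 : RW 5 3 3 D cls mv 52 92 (Nat.add 92 10) := RW.ck 52 92 10 (by decide +kernel)

theorem r52_102 : RW 5 3 3 D cls mv 52 102 (Nat.add 102 10) := RW.ck 52 102 10 (by decide +kernel)

theorem r52_112 : RW 5 3 3 D cls mv 52 112 (Nat.add 112 10) := RW.ck 52 112 10 (by decide +kernel)

theorem c52 : CR 5 3 3 D cls mv 122 52 (Nat.succ 52) := CR.one 52 (((r52_52).trans ((r52_62).trans (r52_72))).trans (((r52_82).trans (r52_92)).trans ((r52_102).trans (r52_112))))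

theorem cm52 : CR 5 3 3 D cls mv 122 52 53 := c52

end Vale.Agent.P355.H41.L5
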