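import Vale.Agent.P355.H41.L5.D
import Vale.Agent.P355.H41.F1.Rg

namespace Vale.Agent.P355.H41.L5

open Vale.Agent.P355 Vale.Agent.P355.H147 Vale.Agent.P355.H998.E Vale.Agent.P355.H41.F1

theorem r53_53 : RW 5 3 3 D cls mv 53 53 (Nat.add 53 10) := RW.ck 53 53 10 (by decide +kernel)

theorem r53_63 : RW 5 3 3 D cls mv 53 63 (Nat.add 63 10) := RW.ck 53 63 10 (by decide +kernel)

theorem r53_73 : RW 5 3 3 D cls mv 53 73 (Nat.add 73 10) := RW.ck 53 73 10 (by decide +kernel)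

theorem r53_83 : RW 5 3 3 D cls mv 53 83 (Nat.add 83 10) := RW.ck 53 83 10 (by decide +kernel)

theorem r53_93 : RW 5 3 3 D cls mv 53 93 (Nat.add 93 10) := RW.ck 53 93 10 (by decide +kernel)

theorem r53_103 : RW 5 3 3 D cls mv 53 103 (Nat.add 103 10) := RW.ck 53 103 10 (by decide +kernel)

theorem r53_113 : RW 5 3 3 D cls mv 53 113 (Nat.add 113 9) := RW.ck 53 113 9 (by decide +kernel)

theorem c53 : CR 5 3 3 D cls mv 122 53 (Nat.succ 53) := CR.one 53 (((r53_53).trans ((r53_63).trans (r53_73))).trans (((r53_83).trans (r53_93)).trans ((r53_103).trans (r53_113))))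

theorem cm53 : CR 5 3 3 D cls mv 122 53 54 := c53

end Vale.Agent.P355.H41.L5
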