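import Vale.Agent.P355.H41.L5.D
import Vale.Agent.P355.H41.F1.Rg

namespace Vale.Agent.P355.H41.L5

open Vale.Agent.P355 Vale.Agent.P355.H147 Vale.Agent.P355.H998.E Vale.Agent.P355.H41.F1

theorem r54_54 : RW 5 3 3 D cls mv 54 54 (Nat.add 54 10) := RW.ck 54 54 10 (by decide +kernel)

theorem r54_64 : RW 5 3 3 D cls mv 54 64 (Nat.add 64 10) := RW.ck 54 64 10 (by decide +kernel)

theorem r54_74 : RW 5 3 3 D cls mv 54 74 (Nat.add 74 10) := RW.ck 54 74 10 (by decide +kernel)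

theorem r54_84 : RW 5 3 3 D cls mv 54 84 (Nat.add 84 10) := RW.ck 54 84 10 (by decide +kernel)

theorem r54_94 : RW 5 3 3 D cls mv 54 94 (Nat.add 94 10) := RW.ck 54 94 10 (by decide +kernel)

theorem r54_104 : RW 5 3 3 D cls mv 54 104 (Nat.add 104 10) := RW.ck 54 104 10 (by decide +kernel)

theorem r54_114 : RW 5 3 3 D cls mv 54 114 (Nat.add 114 8) := RW.ck 54 114 8 (by decide +kernel)

theorem c54 : CR 5 3 3 D cls mv 122 54 (Nat.succ 54) := CR.one 54 (((r54_54).trans ((r54_64).trans (r54_74))).trans (((r54_84).trans (r54_94)).trans ((r54_104).trans (r54_114))))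

theorem cm54 : CR 5 3 3 D cls mv 122 54 55 := c54

end Vale.Agent.P355.H41.L5
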