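import Vale.Agent.P355.H41.L5.D
import Vale.Agent.P355.H41.F1.Rg

namespace Vale.Agent.P355.H41.L5

open Vale.Agent.P355 Vale.Agent.P355.H147 Vale.Agent.P355.H998.E Vale.Agent.P355.H41.F1

theorem r55_55 : RW 5 3 3 D cls mv 55 55 (Nat.add 55 10) := RW.ck 55 55 10 (by decide +kernel)

theorem r55_65 : RW 5 3 3 D cls mv 55 65 (Nat.add 65 10) := RW.ck 55 65 10 (by decide +kernel)

theorem r55_75 : RW 5 3 3 D cls mv 55 75 (Nat.add 75 10) := RW.ck 55 75 10 (by decide +kernel)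

theorem r55_85 : RW 5 3 3 D cls mv 55 85 (Nat.add 85 10) := RW.ck 55 85 10 (by decide +kernel)

theorem r55_95 : RW 5 3 3 D cls mv 55 95 (Nat.add 95 10) := RW.ck 55 95 10 (by decide +kernel)

theorem r55_105 : RW 5 3 3 D cls mv 55 105 (Nat.add 105 10) := RW.ck 55 105 10 (by decide +kernel)

theorem r55_115 : RW 5 3 3 D cls mv 55 115 (Nat.add 115 7) := RW.ck 55 115 7 (by decide +kernel)

theorem c55 : CR 5 3 3 D cls mv 122 55 (Nat.succ 55) := CR.one 55 (((r55_55).trans ((r55_65).trans (r55_75))).trans (((r55_85).trans (r55_95)).trans ((r55_105).trans (r55_115))))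

theorem cm55 : CR 5 3 3 D cls mv 122 55 56 := c55

end Vale.Agent.P355.H41.L5
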