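import Vale.Agent.P355.H41.L5.D
import Vale.Agent.P355.H41.F1.Rg

namespace Vale.Agent.P355.H41.L5

open Vale.Agent.P355 Vale.Agent.P355.H147 Vale.Agent.P355.H998.E Vale.Agent.P355.H41.F1

theorem r56_56 : RW 5 3 3 D cls mv 56 56 (Nat.add 56 10) := RW.ck 56 56 10 (by decide +kernel)

theorem r56_66 : RW 5 3 3 D cls mv 56 66 (Nat.add 66 10) := RW.ck 56 66 10 (by decide +kernel)

theorem r56_76 : RW 5 3 3 D cls mv 56 76 (Nat.add 76 10) := RW.ck 56 76 10 (by decide +kernel)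

theorem r56_86 : RW 5 3 3 D cls mv 56 86 (Nat.add 86 10) := RW.ck 56 86 10 (by decide +kernel)

theorem r56_96 : RW 5 3 3 D cls mv 56 96 (Nat.add 96 10) := RW.ck 56 96 10 (by decide +kernel)

theorem r56_106 : RW 5 3 3 D cls mv 56 106 (Nat.add 106 10) := RW.ck 56 106 10 (by decide +kernel)

theorem r56_116 : RW 5 3 3 D cls mv 56 116 (Nat.add 116 6) := RW.ck 56 116 6 (by decide +kernel)

theorem c56 : CR 5 3 3 D cls mv 122 56 (Nat.succ 56) := CR.one 56 (((r56_56).trans ((r56_66).trans (r56_76))).trans (((r56_86).trans (r56_96)).trans ((r56_106).trans (r56_116))))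

theorem cm56 : CR 5 3 3 D cls mv 122 56 57 := c56

end Vale.Agent.P355.H41.L5
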