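import Vale.Agent.P355.H41.L5.D
import Vale.Agent.P355.H41.F1.Rg

namespace Vale.Agent.P355.H41.L5

open Vale.Agent.P355 Vale.Agent.P355.H147 Vale.Agent.P355.H998.E Vale.Agent.P355.H41.F1

theorem r57_57 : RW 5 3 3 D cls mv 57 57 (Nat.add 57 10) := RW.ck 57 57 10 (by decide +kernel)

theorem r57_67 : RW 5 3 3 D cls mv 57 67 (Nat.add 67 10) := RW.ck 57 67 10 (by decide +kernel)

theorem r57_77 : RW 5 3 3 D cls mv 57 77 (Nat.add 77 10) := RW.ck 57 77 10 (by decide +kernel)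

theorem r57_87 : RW 5 3 3 D cls mv 57 87 (Nat.add 87 10) := RW.ck 57 87 10 (by decide +kernel)

theorem r57_97 : RW 5 3 3 D cls mv 57 97 (Nat.add 97 10) := RW.ck 57 97 10 (by decide +kernel)

theorem r57_107 : RW 5 3 3 D cls mv 57 107 (Nat.add 107 10) := RW.ck 57 107 10 (by decide +kernel)

theorem r57_117 : RW 5 3 3 D cls mv 57 117 (Nat.add 117 5) := RW.ck 57 117 5 (by decide +kernel)

theorem c57 : CR 5 3 3 D cls mv 122 57 (Nat.succ 57) := CR.one 57 (((r57_57).trans ((r57_67).trans (r57_77))).trans (((r57_87).trans (r57_97)).trans ((r57_107).trans (r57_117))))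

theorem cm57 : CR 5 3 3 D cls mv 122 57 58 := c57

end Vale.Agent.P355.H41.L5
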