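import Vale.Agent.P355.H41.L5.D
import Vale.Agent.P355.H41.F1.Rg

namespace Vale.Agent.P355.H41.L5

open Vale.Agent.P355 Vale.Agent.P355.H147 Vale.Agent.P355.H998.E Vale.Agent.P355.H41.F1

theorem r58_58 : RW 5 3 3 D cls mv 58 58 (Nat.add 58 10) := RW.ck 58 58 10 (by decide +kernel)

theorem r58_68 : RW 5 3 3 D cls mv 58 68 (Nat.add 68 10) := RW.ck 58 68 10 (by decide +kernel)

theorem r58_78 : RW 5 3 3 D cls mv 58 78 (Nat.add 78 10) := RW.ck 58 78 10 (by decide +kernel)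

theorem r58_88 : RW 5 3 3 D cls mv 58 88 (Nat.add 88 10) := RW.ck 58 88 10 (by decide +kernel)

theorem r58_98 : RW 5 3 3 D cls mv 58 98 (Nat.add 98 10) := RW.ck 58 98 10 (by decide +kernel)

theorem r58_108 : RW 5 3 3 D cls mv 58 108 (Nat.add 108 10) := RW.ck 58 108 10 (by decide +kernel)

theorem r58_118 : RW 5 3 3 D cls mv 58 118 (Nat.add 118 4) := RW.ck 58 118 4 (by decide +kernel)

theorem c58 : CR 5 3 3 D cls mv 122 58 (Nat.succ 58) := CR.one 58 (((r58_58).trans ((r58_68).trans (r58_78))).trans (((r58_88).trans (r58_98)).trans ((r58_108).trans (r58_118))))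

theorem cm58 : CR 5 3 3 D cls mv 122 58 59 := c58

end Vale.Agent.P355.H41.L5
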