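import Vale.Agent.P355.H41.L5.D
import Vale.Agent.P355.H41.F1.Rg

namespace Vale.Agent.P355.H41.L5

open Vale.Agent.P355 Vale.Agent.P355.H147 Vale.Agent.P355.H998.E Vale.Agent.P355.H41.F1

theorem r59_59 : RW 5 3 3 D cls mv 59 59 (Nat.add 59 10) := RW.ck 59 59 10 (by decide +kernel)

theorem r59_69 : RW 5 3 3 D cls mv 59 69 (Nat.add 69 10) := RW.ck 59 69 10 (by decide +kernel)

theorem r59_79 : RW 5 3 3 D cls mv 59 79 (Nat.add 79 10) := RW.ck 59 79 10 (by decide +kernel)

theorem r59_89 : RW 5 3 3 D cls mv 59 89 (Nat.add 89 10) := RW.ck 59 89 10 (by decide +kernel)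

theorem r59_99 : RW 5 3 3 D cls mv 59 99 (Nat.add 99 10) := RW.ck 59 99 10 (by decide +kernel)

theorem r59_109 : RW 5 3 3 D cls mv 59 109 (Nat.add 109 10) := RW.ck 59 109 10 (by decide +kernel)

theorem r59_119 : RW 5 3 3 D cls mv 59 119 (Nat.add 119 3) := RW.ck 59 119 3 (by decide +kernel)

theorem c59 : CR 5 3 3 D cls mv 122 59 (Nat.succ 59) := CR.one 59 (((r59_59).trans ((r59_69).trans (r59_79))).trans (((r59_89).trans (r59_99)).trans ((r59_109).trans (r59_119))))

theorem r60_60 : RW 5 3 3 D cls mv 60 60 (Nat.add 60 10) := RW.ck 60 60 10 (by decide +kernel)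

theorem r60_70 : RW 5 3 3 D cls mv 60 70 (Nat.add 70 10) := RW.ck 60 70 10 (by decide +kernel)

theorem r60_80 : RW 5 3 3 D cls mv 60 80 (Nat.add 80 10) := RW.ck 60 80 10 (by decide +kernel)

theorem r60_90 : RW 5 3 3 D cls mv 60 90 (Nat.add 90 10) := RW.ck 60 90 10 (by decide +kernel)

theorem r60_100 : RW 5 3 3 D cls mv 60 100 (Nat.add 100 10) := RW.ck 60 100 10 (by decide +kernel)

theorem r60_110 : RW 5 3 3 D cls mv 60 110 (Nat.add 110 10) := RW.ck 60 110 10 (by decide +kernel)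

theorem r60_120 : RW 5 3 3 D cls mv 60 120 (Nat.add 120 2) := RW.ck 60 120 2 (by decide +kernel)

theorem c60 : CR 5 3 3 D cls mv 122 60 (Nat.succ 60) := CR.one 60 (((r60_60).trans ((r60_70).trans (r60_80))).trans (((r60_90).trans (r60_100)).trans ((r60_110).trans (r60_120))))

theorem cm59 : CR 5 3 3 D cls mv 122 59 61 := (c59).trans (c60)

end Vale.Agent.P355.H41.L5
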