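import Vale.Agent.P355.H41.L5.D
import Vale.Agent.P355.H41.F1.Rg

namespace Vale.Agent.P355.H41.L5

open Vale.Agent.P355 Vale.Agent.P355.H147 Vale.Agent.P355.H998.E Vale.Agent.P355.H41.F1

theorem r6_6 : RW 5 3 3 D cls mv 6 6 (Nat.add 6 10) := RW.ck 6 6 10 (by decide +kernel)

theorem r6_16 : RW 5 3 3 D cls mv 6 16 (Nat.add 16 10) := RW.ck 6 16 10 (by decide +kernel)

theorem r6_26 : RW 5 3 3 D cls mv 6 26 (Nat.add 26 10) := RW.ck 6 26 10 (by decide +kernel)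

theorem r6_36 : RW 5 3 3 D cls mv 6 36 (Nat.add 36 10) := RW.ck 6 36 10 (by decide +kernel)

theorem r6_46 : RW 5 3 3 D cls mv 6 46 (Nat.add 46 10) := RW.ck 6 46 10 (by decide +kernel)

theorem r6_56 : RW 5 3 3 D cls mv 6 56 (Nat.add 56 10) := RW.ck 6 56 10 (by decide +kernel)

theorem r6_66 : RW 5 3 3 D cls mv 6 66 (Nat.add 66 10) := RW.ck 6 66 10 (by decide +kernel)

theorem r6_76 : RW 5 3 3 D cls mv 6 76 (Nat.add 76 10) := RW.ck 6 76 10 (by decide +kernel)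

theorem r6_86 : RW 5 3 3 D cls mv 6 86 (Nat.add 86 10) := RW.ck 6 86 10 (by decide +kernel)

theorem r6_96 : RW 5 3 3 D cls mv 6 96 (Nat.add 96 10) := RW.ck 6 96 10 (by decide +kernel)

theorem r6_106 : RW 5 3 3 D cls mv 6 106 (Nat.add 106 10) := RW.ck 6 106 10 (by decide +kernel)

theorem r6_116 : RW 5 3 3 D cls mv 6 116 (Nat.add 116 6) := RW.ck 6 116 6 (by decide +kernel)

theorem c6 : CR 5 3 3 D cls mv 122 6 (Nat.succ 6) := CR.one 6 ((((r6_6).trans ((r6_16).trans (r6_26))).trans ((r6_36).trans ((r6_46).trans (r6_56)))).trans (((r6_66).trans ((r6_76).trans (r6_86))).trans ((r6_96).trans ((r6_106).trans (r6_116)))))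

theorem cm6 : CR 5 3 3 D cls mv 122 6 7 := c6

end Vale.Agent.P355.H41.L5
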