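import Vale.Agent.P355.H41.L5.D
import Vale.Agent.P355.H41.F1.Rg

namespace Vale.Agent.P355.H41.L5

open Vale.Agent.P355 Vale.Agent.P355.H147 Vale.Agent.P355.H998.E Vale.Agent.P355.H41.F1

theorem r61_61 : RW 5 3 3 D cls mv 61 61 (Nat.add 61 10) := RW.ck 61 61 10 (by decide +kernel)

theorem r61_71 : RW 5 3 3 D cls mv 61 71 (Nat.add 71 10) := RW.ck 61 71 10 (by decide +kernel)

theorem r61_81 : RW 5 3 3 D cls mv 61 81 (Nat.add 81 10) := RW.ck 61 81 10 (by decide +kernel)

theorem r61_91 : RW 5 3 3 D cls mv 61 91 (Nat.add 91 10) := RW.ck 61 91 10 (by decide +kernel)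

theorem r61_101 : RW 5 3 3 D cls mv 61 101 (Nat.add 101 10) := RW.ck 61 101 10 (by decide +kernel)

theorem r61_111 : RW 5 3 3 D cls mv 61 111 (Nat.add 111 10) := RW.ck 61 111 10 (by decide +kernel)

theorem r61_121 : RW 5 3 3 D cls mv 61 121 (Nat.add 121 1) := RW.ck 61 121 1 (by decide +kernel)

theorem c61 : CR 5 3 3 D cls mv 122 61 (Nat.succ 61) := CR.one 61 (((r61_61).trans ((r61_71).trans (r61_81))).trans (((r61_91).trans (r61_101)).trans ((r61_111).trans (r61_121))))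

theorem r62_62 : RW 5 3 3 D cls mv 62 62 (Nat.add 62 10) := RW.ck 62 62 10 (by decide +kernel)

theorem r62_72 : RW 5 3 3 D cls mv 62 72 (Nat.add 72 10) := RW.ck 62 72 10 (by decide +kernel)

theorem r62_82 : RW 5 3 3 D cls mv 62 82 (Nat.add 82 10) := RW.ck 62 82 10 (by decide +kernel)

theorem r62_92 : RW 5 3 3 D cls mv 62 92 (Nat.add 92 10) := RW.ck 62 92 10 (by decide +kernel)

theorem r62_102 : RW 5 3 3 D cls mv 62 102 (Nat.add 102 10) := RW.ck 62 102 10 (by decide +kernel)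

theorem r62_112 : RW 5 3 3 D cls mv 62 112 (Nat.add 112 10) := RW.ck 62 112 10 (by decide +kernel)

theorem c62 : CR 5 3 3 D cls mv 122 62 (Nat.succ 62) := CR.one 62 (((r62_62).trans ((r62_72).trans (r62_82))).trans ((r62_92).trans ((r62_102).trans (r62_112))))

theorem cm60 : CR 5 3 3 D cls mv 122 61 63 := (c61).trans (c62)

end Vale.Agent.P355.H41.L5
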