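import Vale.Agent.P355.H41.L5.D
import Vale.Agent.P355.H41.F1.Rg

namespace Vale.Agent.P355.H41.L5

open Vale.Agent.P355 Vale.Agent.P355.H147 Vale.Agent.P355.H998.E Vale.Agent.P355.H41.F1

theorem r63_63 : RW 5 3 3 D cls mv 63 63 (Nat.add 63 10) := RW.ck 63 63 10 (by decide +kernel)

theorem r63_73 : RW 5 3 3 D cls mv 63 73 (Nat.add 73 10) := RW.ck 63 73 10 (by decide +kernel)

theorem r63_83 : RW 5 3 3 D cls mv 63 83 (Nat.add 83 10) := RW.ck 63 83 10 (by decide +kernel)

theorem r63_93 : RW 5 3 3 D cls mv 63 93 (Nat.add 93 10) := RW.ck 63 93 10 (by decide +kernel)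

theorem r63_103 : RW 5 3 3 D cls mv 63 103 (Nat.add 103 10) := RW.ck 63 103 10 (by decide +kernel)

theorem r63_113 : RW 5 3 3 D cls mv 63 113 (Nat.add 113 9) := RW.ck 63 113 9 (by decide +kernel)

theorem c63 : CR 5 3 3 D cls mv 122 63 (Nat.succ 63) := CR.one 63 (((r63_63).trans ((r63_73).trans (r63_83))).trans ((r63_93).trans ((r63_103).trans (r63_113))))

theorem r64_64 : RW 5 3 3 D cls mv 64 64 (Nat.add 64 10) := RW.ck 64 64 10 (by decide +kernel)

theorem r64_74 : RW 5 3 3 D cls mv 64 74 (Nat.add 74 10) := RW.ck 64 74 10 (by decide +kernel)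

theorem r64_84 : RW 5 3 3 D cls mv 64 84 (Nat.add 84 10) := RW.ck 64 84 10 (by decide +kernel)

theorem r64_94 : RW 5 3 3 D cls mv 64 94 (Nat.add 94 10) := RW.ck 64 94 10 (by decide +kernel)

theorem r64_104 : RW 5 3 3 D cls mv 64 104 (Nat.add 104 10) := RW.ck 64 104 10 (by decide +kernel)

theorem r64_114 : RW 5 3 3 D cls mv 64 114 (Nat.add 114 8) := RW.ck 64 114 8 (by decide +kernel)

theorem c64 : CR 5 3 3 D cls mv 122 64 (Nat.succ 64) := CR.one 64 (((r64_64).trans ((r64_74).trans (r64_84))).trans ((r64_94).trans ((r64_104).trans (r64_114))))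

theorem cm61 : CR 5 3 3 D cls mv 122 63 65 := (c63).trans (c64)

end Vale.Agent.P355.H41.L5
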