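import Vale.Agent.P355.H41.L5.D
import Vale.Agent.P355.H41.F1.Rg

namespace Vale.Agent.P355.H41.L5

open Vale.Agent.P355 Vale.Agent.P355.H147 Vale.Agent.P355.H998.E Vale.Agent.P355.H41.F1

theorem r65_65 : RW 5 3 3 D cls mv 65 65 (Nat.add 65 10) := RW.ck 65 65 10 (by decide +kernel)

theorem r65_75 : RW 5 3 3 D cls mv 65 75 (Nat.add 75 10) := RW.ck 65 75 10 (by decide +kernel)

theorem r65_85 : RW 5 3 3 D cls mv 65 85 (Nat.add 85 10) := RW.ck 65 85 10 (by decide +kernel)

theorem r65_95 : RW 5 3 3 D cls mv 65 95 (Nat.add 95 10) := RW.ck 65 95 10 (by decide +kernel)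

theorem r65_105 : RW 5 3 3 D cls mv 65 105 (Nat.add 105 10) := RW.ck 65 105 10 (by decide +kernel)

theorem r65_115 : RW 5 3 3 D cls mv 65 115 (Nat.add 115 7) := RW.ck 65 115 7 (by decide +kernel)

theorem c65 : CR 5 3 3 D cls mv 122 65 (Nat.succ 65) := CR.one 65 (((r65_65).trans ((r65_75).trans (r65_85))).trans ((r65_95).trans ((r65_105).trans (r65_115))))

theorem r66_66 : RW 5 3 3 D cls mv 66 66 (Nat.add 66 10) := RW.ck 66 66 10 (by decide +kernel)

theorem r66_76 : RW 5 3 3 D cls mv 66 76 (Nat.add 76 10) := RW.ck 66 76 10 (by decide +kernel)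

theorem r66_86 : RW 5 3 3 D cls mv 66 86 (Nat.add 86 10) := RW.ck 66 86 10 (by decide +kernel)

theorem r66_96 : RW 5 3 3 D cls mv 66 96 (Nat.add 96 10) := RW.ck 66 96 10 (by decide +kernel)

theorem r66_106 : RW 5 3 3 D cls mv 66 106 (Nat.add 106 10) := RW.ck 66 106 10 (by decide +kernel)

theorem r66_116 : RW 5 3 3 D cls mv 66 116 (Nat.add 116 6) := RW.ck 66 116 6 (by decide +kernel)

theorem c66 : CR 5 3 3 D cls mv 122 66 (Nat.succ 66) := CR.one 66 (((r66_66).trans ((r66_76).trans (r66_86))).trans ((r66_96).trans ((r66_106).trans (r66_116))))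

theorem cm62 : CR 5 3 3 D cls mv 122 65 67 := (c65).trans (c66)

end Vale.Agent.P355.H41.L5
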