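import Vale.Agent.P355.H41.L5.D
import Vale.Agent.P355.H41.F1.Rg

namespace Vale.Agent.P355.H41.L5

open Vale.Agent.P355 Vale.Agent.P355.H147 Vale.Agent.P355.H998.E Vale.Agent.P355.H41.F1

theorem r67_67 : RW 5 3 3 D cls mv 67 67 (Nat.add 67 10) := RW.ck 67 67 10 (by decide +kernel)

theorem r67_77 : RW 5 3 3 D cls mv 67 77 (Nat.add 77 10) := RW.ck 67 77 10 (by decide +kernel)

theorem r67_87 : RW 5 3 3 D cls mv 67 87 (Nat.add 87 10) := RW.ck 67 87 10 (by decide +kernel)

theorem r67_97 : RW 5 3 3 D cls mv 67 97 (Nat.add 97 10) := RW.ck 67 97 10 (by decide +kernel)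

theorem r67_107 : RW 5 3 3 D cls mv 67 107 (Nat.add 107 10) := RW.ck 67 107 10 (by decide +kernel)

theorem r67_117 : RW 5 3 3 D cls mv 67 117 (Nat.add 117 5) := RW.ck 67 117 5 (by decide +kernel)

theorem c67 : CR 5 3 3 D cls mv 122 67 (Nat.succ 67) := CR.one 67 (((r67_67).trans ((r67_77).trans (r67_87))).trans ((r67_97).trans ((r67_107).trans (r67_117))))

theorem r68_68 : RW 5 3 3 D cls mv 68 68 (Nat.add 68 10) := RW.ck 68 68 10 (by decide +kernel)

theorem r68_78 : RW 5 3 3 D cls mv 68 78 (Nat.add 78 10) := RW.ck 68 78 10 (by decide +kernel)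

theorem r68_88 : RW 5 3 3 D cls mv 68 88 (Nat.add 88 10) := RW.ck 68 88 10 (by decide +kernel)

theorem r68_98 : RW 5 3 3 D cls mv 68 98 (Nat.add 98 10) := RW.ck 68 98 10 (by decide +kernel)

theorem r68_108 : RW 5 3 3 D cls mv 68 108 (Nat.add 108 10) := RW.ck 68 108 10 (by decide +kernel)

theorem r68_118 : RW 5 3 3 D cls mv 68 118 (Nat.add 118 4) := RW.ck 68 118 4 (by decide +kernel)

theorem c68 : CR 5 3 3 D cls mv 122 68 (Nat.succ 68) := CR.one 68 (((r68_68).trans ((r68_78).trans (r68_88))).trans ((r68_98).trans ((r68_108).trans (r68_118))))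

theorem cm63 : CR 5 3 3 D cls mv 122 67 69 := (c67).trans (c68)

end Vale.Agent.P355.H41.L5
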