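import Vale.Agent.P355.H41.L5.D
import Vale.Agent.P355.H41.F1.Rg

namespace Vale.Agent.P355.H41.L5

open Vale.Agent.P355 Vale.Agent.P355.H147 Vale.Agent.P355.H998.E Vale.Agent.P355.H41.F1

theorem r69_69 : RW 5 3 3 D cls mv 69 69 (Nat.add 69 10) := RW.ck 69 69 10 (by decide +kernel)

theorem r69_79 : RW 5 3 3 D cls mv 69 79 (Nat.add 79 10) := RW.ck 69 79 10 (by decide +kernel)

theorem r69_89 : RW 5 3 3 D cls mv 69 89 (Nat.add 89 10) := RW.ck 69 89 10 (by decide +kernel)

theorem r69_99 : RW 5 3 3 D cls mv 69 99 (Nat.add 99 10) := RW.ck 69 99 10 (by decide +kernel)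

theorem r69_109 : RW 5 3 3 D cls mv 69 109 (Nat.add 109 10) := RW.ck 69 109 10 (by decide +kernel)

theorem r69_119 : RW 5 3 3 D cls mv 69 119 (Nat.add 119 3) := RW.ck 69 119 3 (by decide +kernel)

theorem c69 : CR 5 3 3 D cls mv 122 69 (Nat.succ 69) := CR.one 69 (((r69_69).trans ((r69_79).trans (r69_89))).trans ((r69_99).trans ((r69_109).trans (r69_119))))

theorem r70_70 : RW 5 3 3 D cls mv 70 70 (Nat.add 70 10) := RW.ck 70 70 10 (by decide +kernel)

theorem r70_80 : RW 5 3 3 D cls mv 70 80 (Nat.add 80 10) := RW.ck 70 80 10 (by decide +kernel)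

theorem r70_90 : RW 5 3 3 D cls mv 70 90 (Nat.add 90 10) := RW.ck 70 90 10 (by decide +kernel)

theorem r70_100 : RW 5 3 3 D cls mv 70 100 (Nat.add 100 10) := RW.ck 70 100 10 (by decide +kernel)

theorem r70_110 : RW 5 3 3 D cls mv 70 110 (Nat.add 110 10) := RW.ck 70 110 10 (by decide +kernel)

theorem r70_120 : RW 5 3 3 D cls mv 70 120 (Nat.add 120 2) := RW.ck 70 120 2 (by decide +kernel)

theorem c70 : CR 5 3 3 D cls mv 122 70 (Nat.succ 70) := CR.one 70 (((r70_70).trans ((r70_80).trans (r70_90))).trans ((r70_100).trans ((r70_110).trans (r70_120))))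

theorem cm64 : CR 5 3 3 D cls mv 122 69 71 := (c69).trans (c70)

end Vale.Agent.P355.H41.L5
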