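import Vale.Agent.P355.H41.L5.D
import Vale.Agent.P355.H41.F1.Rg

namespace Vale.Agent.P355.H41.L5

open Vale.Agent.P355 Vale.Agent.P355.H147 Vale.Agent.P355.H998.E Vale.Agent.P355.H41.F1

theorem r71_71 : RW 5 3 3 D cls mv 71 71 (Nat.add 71 10) := RW.ck 71 71 10 (by decide +kernel)

theorem r71_81 : RW 5 3 3 D cls mv 71 81 (Nat.add 81 10) := RW.ck 71 81 10 (by decide +kernel)

theorem r71_91 : RW 5 3 3 D cls mv 71 91 (Nat.add 91 10) := RW.ck 71 91 10 (by decide +kernel)

theorem r71_101 : RW 5 3 3 D cls mv 71 101 (Nat.add 101 10) := RW.ck 71 101 10 (by decide +kernel)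

theorem r71_111 : RW 5 3 3 D cls mv 71 111 (Nat.add 111 10) := RW.ck 71 111 10 (by decide +kernel)

theorem r71_121 : RW 5 3 3 D cls mv 71 121 (Nat.add 121 1) := RW.ck 71 121 1 (by decide +kernel)

theorem c71 : CR 5 3 3 D cls mv 122 71 (Nat.succ 71) := CR.one 71 (((r71_71).trans ((r71_81).trans (r71_91))).trans ((r71_101).trans ((r71_111).trans (r71_121))))

theorem r72_72 : RW 5 3 3 D cls mv 72 72 (Nat.add 72 10) := RW.ck 72 72 10 (by decide +kernel)

theorem r72_82 : RW 5 3 3 D cls mv 72 82 (Nat.add 82 10) := RW.ck 72 82 10 (by decide +kernel)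

theorem r72_92 : RW 5 3 3 D cls mv 72 92 (Nat.add 92 10) := RW.ck 72 92 10 (by decide +kernel)

theorem r72_102 : RW 5 3 3 D cls mv 72 102 (Nat.add 102 10) := RW.ck 72 102 10 (by decide +kernel)

theorem r72_112 : RW 5 3 3 D cls mv 72 112 (Nat.add 112 10) := RW.ck 72 112 10 (by decide +kernel)

theorem c72 : CR 5 3 3 D cls mv 122 72 (Nat.succ 72) := CR.one 72 (((r72_72).trans (r72_82)).trans ((r72_92).trans ((r72_102).trans (r72_112))))

theorem cm65 : CR 5 3 3 D cls mv 122 71 73 := (c71).trans (c72)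

end Vale.Agent.P355.H41.L5
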