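import Vale.Agent.P355.H41.L5.D
import Vale.Agent.P355.H41.F1.Rg

namespace Vale.Agent.P355.H41.L5

open Vale.Agent.P355 Vale.Agent.P355.H147 Vale.Agent.P355.H998.E Vale.Agent.P355.H41.F1

theorem r73_73 : RW 5 3 3 D cls mv 73 73 (Nat.add 73 10) := RW.ck 73 73 10 (by decide +kernel)

theorem r73_83 : RW 5 3 3 D cls mv 73 83 (Nat.add 83 10) := RW.ck 73 83 10 (by decide +kernel)

theorem r73_93 : RW 5 3 3 D cls mv 73 93 (Nat.add 93 10) := RW.ck 73 93 10 (by decide +kernel)

theorem r73_103 : RW 5 3 3 D cls mv 73 103 (Nat.add 103 10) := RW.ck 73 103 10 (by decide +kernel)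

theorem r73_113 : RW 5 3 3 D cls mv 73 113 (Nat.add 113 9) := RW.ck 73 113 9 (by decide +kernel)

theorem c73 : CR 5 3 3 D cls mv 122 73 (Nat.succ 73) := CR.one 73 (((r73_73).trans (r73_83)).trans ((r73_93).trans ((r73_103).trans (r73_113))))

theorem r74_74 : RW 5 3 3 D cls mv 74 74 (Nat.add 74 10) := RW.ck 74 74 10 (by decide +kernel)

theorem r74_84 : RW 5 3 3 D cls mv 74 84 (Nat.add 84 10) := RW.ck 74 84 10 (by decide +kernel)

theorem r74_94 : RW 5 3 3 D cls mv 74 94 (Nat.add 94 10) := RW.ck 74 94 10 (by decide +kernel)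

theorem r74_104 : RW 5 3 3 D cls mv 74 104 (Nat.add 104 10) := RW.ck 74 104 10 (by decide +kernel)

theorem r74_114 : RW 5 3 3 D cls mv 74 114 (Nat.add 114 8) := RW.ck 74 114 8 (by decide +kernel)

theorem c74 : CR 5 3 3 D cls mv 122 74 (Nat.succ 74) := CR.one 74 (((r74_74).trans (r74_84)).trans ((r74_94).trans ((r74_104).trans (r74_114))))

theorem cm66 : CR 5 3 3 D cls mv 122 73 75 := (c73).trans (c74)

end Vale.Agent.P355.H41.L5
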