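import Vale.Agent.P355.H41.L5.D
import Vale.Agent.P355.H41.F1.Rg

namespace Vale.Agent.P355.H41.L5

open Vale.Agent.P355 Vale.Agent.P355.H147 Vale.Agent.P355.H998.E Vale.Agent.P355.H41.F1

theorem r75_75 : RW 5 3 3 D cls mv 75 75 (Nat.add 75 10) := RW.ck 75 75 10 (by decide +kernel)

theorem r75_85 : RW 5 3 3 D cls mv 75 85 (Nat.add 85 10) := RW.ck 75 85 10 (by decide +kernel)

theorem r75_95 : RW 5 3 3 D cls mv 75 95 (Nat.add 95 10) := RW.ck 75 95 10 (by decide +kernel)

theorem r75_105 : RW 5 3 3 D cls mv 75 105 (Nat.add 105 10) := RW.ck 75 105 10 (by decide +kernel)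

theorem r75_115 : RW 5 3 3 D cls mv 75 115 (Nat.add 115 7) := RW.ck 75 115 7 (by decide +kernel)

theorem c75 : CR 5 3 3 D cls mv 122 75 (Nat.succ 75) := CR.one 75 (((r75_75).trans (r75_85)).trans ((r75_95).trans ((r75_105).trans (r75_115))))

theorem r76_76 : RW 5 3 3 D cls mv 76 76 (Nat.add 76 10) := RW.ck 76 76 10 (by decide +kernel)

theorem r76_86 : RW 5 3 3 D cls mv 76 86 (Nat.add 86 10) := RW.ck 76 86 10 (by decide +kernel)

theorem r76_96 : RW 5 3 3 D cls mv 76 96 (Nat.add 96 10) := RW.ck 76 96 10 (by decide +kernel)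

theorem r76_106 : RW 5 3 3 D cls mv 76 106 (Nat.add 106 10) := RW.ck 76 106 10 (by decide +kernel)

theorem r76_116 : RW 5 3 3 D cls mv 76 116 (Nat.add 116 6) := RW.ck 76 116 6 (by decide +kernel)

theorem c76 : CR 5 3 3 D cls mv 122 76 (Nat.succ 76) := CR.one 76 (((r76_76).trans (r76_86)).trans ((r76_96).trans ((r76_106).trans (r76_116))))

theorem cm67 : CR 5 3 3 D cls mv 122 75 77 := (c75).trans (c76)

end Vale.Agent.P355.H41.L5
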