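import Vale.Agent.P355.H41.L5.D
import Vale.Agent.P355.H41.F1.Rg

namespace Vale.Agent.P355.H41.L5

open Vale.Agent.P355 Vale.Agent.P355.H147 Vale.Agent.P355.H998.E Vale.Agent.P355.H41.F1

theorem r77_77 : RW 5 3 3 D cls mv 77 77 (Nat.add 77 10) := RW.ck 77 77 10 (by decide +kernel)

theorem r77_87 : RW 5 3 3 D cls mv 77 87 (Nat.add 87 10) := RW.ck 77 87 10 (by decide +kernel)

theorem r77_97 : RW 5 3 3 D cls mv 77 97 (Nat.add 97 10) := RW.ck 77 97 10 (by decide +kernel)

theorem r77_107 : RW 5 3 3 D cls mv 77 107 (Nat.add 107 10) := RW.ck 77 107 10 (by decide +kernel)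

theorem r77_117 : RW 5 3 3 D cls mv 77 117 (Nat.add 117 5) := RW.ck 77 117 5 (by decide +kernel)

theorem c77 : CR 5 3 3 D cls mv 122 77 (Nat.succ 77) := CR.one 77 (((r77_77).trans (r77_87)).trans ((r77_97).trans ((r77_107).trans (r77_117))))

theorem r78_78 : RW 5 3 3 D cls mv 78 78 (Nat.add 78 10) := RW.ck 78 78 10 (by decide +kernel)

theorem r78_88 : RW 5 3 3 D cls mv 78 88 (Nat.add 88 10) := RW.ck 78 88 10 (by decide +kernel)

theorem r78_98 : RW 5 3 3 D cls mv 78 98 (Nat.add 98 10) := RW.ck 78 98 10 (by decide +kernel)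

theorem r78_108 : RW 5 3 3 D cls mv 78 108 (Nat.add 108 10) := RW.ck 78 108 10 (by decide +kernel)

theorem r78_118 : RW 5 3 3 D cls mv 78 118 (Nat.add 118 4) := RW.ck 78 118 4 (by decide +kernel)

theorem c78 : CR 5 3 3 D cls mv 122 78 (Nat.succ 78) := CR.one 78 (((r78_78).trans (r78_88)).trans ((r78_98).trans ((r78_108).trans (r78_118))))

theorem cm68 : CR 5 3 3 D cls mv 122 77 79 := (c77).trans (c78)

end Vale.Agent.P355.H41.L5
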