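import Vale.Agent.P355.H41.L5.D
import Vale.Agent.P355.H41.F1.Rg

namespace Vale.Agent.P355.H41.L5

open Vale.Agent.P355 Vale.Agent.P355.H147 Vale.Agent.P355.H998.E Vale.Agent.P355.H41.F1

theorem r79_79 : RW 5 3 3 D cls mv 79 79 (Nat.add 79 10) := RW.ck 79 79 10 (by decide +kernel)

theorem r79_89 : RW 5 3 3 D cls mv 79 89 (Nat.add 89 10) := RW.ck 79 89 10 (by decide +kernel)

theorem r79_99 : RW 5 3 3 D cls mv 79 99 (Nat.add 99 10) := RW.ck 79 99 10 (by decide +kernel)

theorem r79_109 : RW 5 3 3 D cls mv 79 109 (Nat.add 109 10) := RW.ck 79 109 10 (by decide +kernel)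

theorem r79_119 : RW 5 3 3 D cls mv 79 119 (Nat.add 119 3) := RW.ck 79 119 3 (by decide +kernel)

theorem c79 : CR 5 3 3 D cls mv 122 79 (Nat.succ 79) := CR.one 79 (((r79_79).trans (r79_89)).trans ((r79_99).trans ((r79_109).trans (r79_119))))

theorem r80_80 : RW 5 3 3 D cls mv 80 80 (Nat.add 80 10) := RW.ck 80 80 10 (by decide +kernel)

theorem r80_90 : RW 5 3 3 D cls mv 80 90 (Nat.add 90 10) := RW.ck 80 90 10 (by decide +kernel)

theorem r80_100 : RW 5 3 3 D cls mv 80 100 (Nat.add 100 10) := RW.ck 80 100 10 (by decide +kernel)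

theorem r80_110 : RW 5 3 3 D cls mv 80 110 (Nat.add 110 10) := RW.ck 80 110 10 (by decide +kernel)

theorem r80_120 : RW 5 3 3 D cls mv 80 120 (Nat.add 120 2) := RW.ck 80 120 2 (by decide +kernel)

theorem c80 : CR 5 3 3 D cls mv 122 80 (Nat.succ 80) := CR.one 80 (((r80_80).trans (r80_90)).trans ((r80_100).trans ((r80_110).trans (r80_120))))

theorem cm69 : CR 5 3 3 D cls mv 122 79 81 := (c79).trans (c80)

end Vale.Agent.P355.H41.L5
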