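import Vale.Agent.P355.H41.L5.D
import Vale.Agent.P355.H41.F1.Rg

namespace Vale.Agent.P355.H41.L5

open Vale.Agent.P355 Vale.Agent.P355.H147 Vale.Agent.P355.H998.E Vale.Agent.P355.H41.F1

theorem r7_7 : RW 5 3 3 D cls mv 7 7 (Nat.add 7 10) := RW.ck 7 7 10 (by decide +kernel)

theorem r7_17 : RW 5 3 3 D cls mv 7 17 (Nat.add 17 10) := RW.ck 7 17 10 (by decide +kernel)

theorem r7_27 : RW 5 3 3 D cls mv 7 27 (Nat.add 27 10) := RW.ck 7 27 10 (by decide +kernel)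

theorem r7_37 : RW 5 3 3 D cls mv 7 37 (Nat.add 37 10) := RW.ck 7 37 10 (by decide +kernel)

theorem r7_47 : RW 5 3 3 D cls mv 7 47 (Nat.add 47 10) := RW.ck 7 47 10 (by decide +kernel)

theorem r7_57 : RW 5 3 3 D cls mv 7 57 (Nat.add 57 10) := RW.ck 7 57 10 (by decide +kernel)

theorem r7_67 : RW 5 3 3 D cls mv 7 67 (Nat.add 67 10) := RW.ck 7 67 10 (by decide +kernel)

theorem r7_77 : RW 5 3 3 D cls mv 7 77 (Nat.add 77 10) := RW.ck 7 77 10 (by decide +kernel)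

theorem r7_87 : RW 5 3 3 D cls mv 7 87 (Nat.add 87 10) := RW.ck 7 87 10 (by decide +kernel)

theorem r7_97 : RW 5 3 3 D cls mv 7 97 (Nat.add 97 10) := RW.ck 7 97 10 (by decide +kernel)

theorem r7_107 : RW 5 3 3 D cls mv 7 107 (Nat.add 107 10) := RW.ck 7 107 10 (by decide +kernel)

theorem r7_117 : RW 5 3 3 D cls mv 7 117 (Nat.add 117 5) := RW.ck 7 117 5 (by decide +kernel)

theorem c7 : CR 5 3 3 D cls mv 122 7 (Nat.succ 7) := CR.one 7 ((((r7_7).trans ((r7_17).trans (r7_27))).trans ((r7_37).trans ((r7_47).trans (r7_57)))).trans (((r7_67).trans ((r7_77).trans (r7_87))).trans ((r7_97).trans ((r7_107).trans (r7_117)))))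

theorem cm7 : CR 5 3 3 D cls mv 122 7 8 := c7

end Vale.Agent.P355.H41.L5
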