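import Vale.Agent.P355.H41.L5.D
import Vale.Agent.P355.H41.F1.Rg

namespace Vale.Agent.P355.H41.L5

open Vale.Agent.P355 Vale.Agent.P355.H147 Vale.Agent.P355.H998.E Vale.Agent.P355.H41.F1

theorem r81_81 : RW 5 3 3 D cls mv 81 81 (Nat.add 81 10) := RW.ck 81 81 10 (by decide +kernel)

theorem r81_91 : RW 5 3 3 D cls mv 81 91 (Nat.add 91 10) := RW.ck 81 91 10 (by decide +kernel)

theorem r81_101 : RW 5 3 3 D cls mv 81 101 (Nat.add 101 10) := RW.ck 81 101 10 (by decide +kernel)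

theorem r81_111 : RW 5 3 3 D cls mv 81 111 (Nat.add 111 10) := RW.ck 81 111 10 (by decide +kernel)

theorem r81_121 : RW 5 3 3 D cls mv 81 121 (Nat.add 121 1) := RW.ck 81 121 1 (by decide +kernel)

theorem c81 : CR 5 3 3 D cls mv 122 81 (Nat.succ 81) := CR.one 81 (((r81_81).trans (r81_91)).trans ((r81_101).trans ((r81_111).trans (r81_121))))

theorem r82_82 : RW 5 3 3 D cls mv 82 82 (Nat.add 82 10) := RW.ck 82 82 10 (by decide +kernel)

theorem r82_92 : RW 5 3 3 D cls mv 82 92 (Nat.add 92 10) := RW.ck 82 92 10 (by decide +kernel)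

theorem r82_102 : RW 5 3 3 D cls mv 82 102 (Nat.add 102 10) := RW.ck 82 102 10 (by decide +kernel)

theorem r82_112 : RW 5 3 3 D cls mv 82 112 (Nat.add 112 10) := RW.ck 82 112 10 (by decide +kernel)

theorem c82 : CR 5 3 3 D cls mv 122 82 (Nat.succ 82) := CR.one 82 (((r82_82).trans (r82_92)).trans ((r82_102).trans (r82_112)))

theorem r83_83 : RW 5 3 3 D cls mv 83 83 (Nat.add 83 10) := RW.ck 83 83 10 (by decide +kernel)

theorem r83_93 : RW 5 3 3 D cls mv 83 93 (Nat.add 93 10) := RW.ck 83 93 10 (by decide +kernel)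

theorem r83_103 : RW 5 3 3 D cls mv 83 103 (Nat.add 103 10) := RW.ck 83 103 10 (by decide +kernel)

theorem r83_113 : RW 5 3 3 D cls mv 83 113 (Nat.add 113 9) := RW.ck 83 113 9 (by decide +kernel)

theorem c83 : CR 5 3 3 D cls mv 122 83 (Nat.succ 83) := CR.one 83 (((r83_83).trans (r83_93)).trans ((r83_103).trans (r83_113)))

theorem cm70 : CR 5 3 3 D cls mv 122 81 84 := (c81).trans ((c82).trans (c83))

end Vale.Agent.P355.H41.L5
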