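import Vale.Agent.P355.H41.L5.D
import Vale.Agent.P355.H41.F1.Rg

namespace Vale.Agent.P355.H41.L5

open Vale.Agent.P355 Vale.Agent.P355.H147 Vale.Agent.P355.H998.E Vale.Agent.P355.H41.F1

theorem r84_84 : RW 5 3 3 D cls mv 84 84 (Nat.add 84 10) := RW.ck 84 84 10 (by decide +kernel)

theorem r84_94 : RW 5 3 3 D cls mv 84 94 (Nat.add 94 10) := RW.ck 84 94 10 (by decide +kernel)

theorem r84_104 : RW 5 3 3 D cls mv 84 104 (Nat.add 104 10) := RW.ck 84 104 10 (by decide +kernel)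

theorem r84_114 : RW 5 3 3 D cls mv 84 114 (Nat.add 114 8) := RW.ck 84 114 8 (by decide +kernel)

theorem c84 : CR 5 3 3 D cls mv 122 84 (Nat.succ 84) := CR.one 84 (((r84_84).trans (r84_94)).trans ((r84_104).trans (r84_114)))

theorem r85_85 : RW 5 3 3 D cls mv 85 85 (Nat.add 85 10) := RW.ck 85 85 10 (by decide +kernel)

theorem r85_95 : RW 5 3 3 D cls mv 85 95 (Nat.add 95 10) := RW.ck 85 95 10 (by decide +kernel)

theorem r85_105 : RW 5 3 3 D cls mv 85 105 (Nat.add 105 10) := RW.ck 85 105 10 (by decide +kernel)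

theorem r85_115 : RW 5 3 3 D cls mv 85 115 (Nat.add 115 7) := RW.ck 85 115 7 (by decide +kernel)

theorem c85 : CR 5 3 3 D cls mv 122 85 (Nat.succ 85) := CR.one 85 (((r85_85).trans (r85_95)).trans ((r85_105).trans (r85_115)))

theorem r86_86 : RW 5 3 3 D cls mv 86 86 (Nat.add 86 10) := RW.ck 86 86 10 (by decide +kernel)

theorem r86_96 : RW 5 3 3 D cls mv 86 96 (Nat.add 96 10) := RW.ck 86 96 10 (by decide +kernel)

theorem r86_106 : RW 5 3 3 D cls mv 86 106 (Nat.add 106 10) := RW.ck 86 106 10 (by decide +kernel)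

theorem r86_116 : RW 5 3 3 D cls mv 86 116 (Nat.add 116 6) := RW.ck 86 116 6 (by decide +kernel)

theorem c86 : CR 5 3 3 D cls mv 122 86 (Nat.succ 86) := CR.one 86 (((r86_86).trans (r86_96)).trans ((r86_106).trans (r86_116)))

theorem cm71 : CR 5 3 3 D cls mv 122 84 87 := (c84).trans ((c85).trans (c86))

end Vale.Agent.P355.H41.L5
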