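import Vale.Agent.P355.H41.L5.D
import Vale.Agent.P355.H41.F1.Rg

namespace Vale.Agent.P355.H41.L5

open Vale.Agent.P355 Vale.Agent.P355.H147 Vale.Agent.P355.H998.E Vale.Agent.P355.H41.F1

theorem r87_87 : RW 5 3 3 D cls mv 87 87 (Nat.add 87 10) := RW.ck 87 87 10 (by decide +kernel)

theorem r87_97 : RW 5 3 3 D cls mv 87 97 (Nat.add 97 10) := RW.ck 87 97 10 (by decide +kernel)

theorem r87_107 : RW 5 3 3 D cls mv 87 107 (Nat.add 107 10) := RW.ck 87 107 10 (by decide +kernel)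

theorem r87_117 : RW 5 3 3 D cls mv 87 117 (Nat.add 117 5) := RW.ck 87 117 5 (by decide +kernel)

theorem c87 : CR 5 3 3 D cls mv 122 87 (Nat.succ 87) := CR.one 87 (((r87_87).trans (r87_97)).trans ((r87_107).trans (r87_117)))

theorem r88_88 : RW 5 3 3 D cls mv 88 88 (Nat.add 88 10) := RW.ck 88 88 10 (by decide +kernel)

theorem r88_98 : RW 5 3 3 D cls mv 88 98 (Nat.add 98 10) := RW.ck 88 98 10 (by decide +kernel)

theorem r88_108 : RW 5 3 3 D cls mv 88 108 (Nat.add 108 10) := RW.ck 88 108 10 (by decide +kernel)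

theorem r88_118 : RW 5 3 3 D cls mv 88 118 (Nat.add 118 4) := RW.ck 88 118 4 (by decide +kernel)

theorem c88 : CR 5 3 3 D cls mv 122 88 (Nat.succ 88) := CR.one 88 (((r88_88).trans (r88_98)).trans ((r88_108).trans (r88_118)))

theorem r89_89 : RW 5 3 3 D cls mv 89 89 (Nat.add 89 10) := RW.ck 89 89 10 (by decide +kernel)

theorem r89_99 : RW 5 3 3 D cls mv 89 99 (Nat.add 99 10) := RW.ck 89 99 10 (by decide +kernel)

theorem r89_109 : RW 5 3 3 D cls mv 89 109 (Nat.add 109 10) := RW.ck 89 109 10 (by decide +kernel)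

theorem r89_119 : RW 5 3 3 D cls mv 89 119 (Nat.add 119 3) := RW.ck 89 119 3 (by decide +kernel)

theorem c89 : CR 5 3 3 D cls mv 122 89 (Nat.succ 89) := CR.one 89 (((r89_89).trans (r89_99)).trans ((r89_109).trans (r89_119)))

theorem cm72 : CR 5 3 3 D cls mv 122 87 90 := (c87).trans ((c88).trans (c89))

end Vale.Agent.P355.H41.L5
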