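import Vale.Agent.P355.H41.L5.D
import Vale.Agent.P355.H41.F1.Rg

namespace Vale.Agent.P355.H41.L5

open Vale.Agent.P355 Vale.Agent.P355.H147 Vale.Agent.P355.H998.E Vale.Agent.P355.H41.F1

theorem r90_90 : RW 5 3 3 D cls mv 90 90 (Nat.add 90 10) := RW.ck 90 90 10 (by decide +kernel)

theorem r90_100 : RW 5 3 3 D cls mv 90 100 (Nat.add 100 10) := RW.ck 90 100 10 (by decide +kernel)

theorem r90_110 : RW 5 3 3 D cls mv 90 110 (Nat.add 110 10) := RW.ck 90 110 10 (by decide +kernel)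

theorem r90_120 : RW 5 3 3 D cls mv 90 120 (Nat.add 120 2) := RW.ck 90 120 2 (by decide +kernel)

theorem c90 : CR 5 3 3 D cls mv 122 90 (Nat.succ 90) := CR.one 90 (((r90_90).trans (r90_100)).trans ((r90_110).trans (r90_120)))

theorem r91_91 : RW 5 3 3 D cls mv 91 91 (Nat.add 91 10) := RW.ck 91 91 10 (by decide +kernel)

theorem r91_101 : RW 5 3 3 D cls mv 91 101 (Nat.add 101 10) := RW.ck 91 101 10 (by decide +kernel)

theorem r91_111 : RW 5 3 3 D cls mv 91 111 (Nat.add 111 10) := RW.ck 91 111 10 (by decide +kernel)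

theorem r91_121 : RW 5 3 3 D cls mv 91 121 (Nat.add 121 1) := RW.ck 91 121 1 (by decide +kernel)

theorem c91 : CR 5 3 3 D cls mv 122 91 (Nat.succ 91) := CR.one 91 (((r91_91).trans (r91_101)).trans ((r91_111).trans (r91_121)))

theorem r92_92 : RW 5 3 3 D cls mv 92 92 (Nat.add 92 10) := RW.ck 92 92 10 (by decide +kernel)

theorem r92_102 : RW 5 3 3 D cls mv 92 102 (Nat.add 102 10) := RW.ck 92 102 10 (by decide +kernel)

theorem r92_112 : RW 5 3 3 D cls mv 92 112 (Nat.add 112 10) := RW.ck 92 112 10 (by decide +kernel)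

theorem c92 : CR 5 3 3 D cls mv 122 92 (Nat.succ 92) := CR.one 92 ((r92_92).trans ((r92_102).trans (r92_112)))

theorem r93_93 : RW 5 3 3 D cls mv 93 93 (Nat.add 93 10) := RW.ck 93 93 10 (by decide +kernel)

theorem r93_103 : RW 5 3 3 D cls mv 93 103 (Nat.add 103 10) := RW.ck 93 103 10 (by decide +kernel)

theorem r93_113 : RW 5 3 3 D cls mv 93 113 (Nat.add 113 9) := RW.ck 93 113 9 (by decide +kernel)

theorem c93 : CR 5 3 3 D cls mv 122 93 (Nat.succ 93) := CR.one 93 ((r93_93).trans ((r93_103).trans (r93_113)))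

theorem cm73 : CR 5 3 3 D cls mv 122 90 94 := ((c90).trans (c91)).trans ((c92).trans (c93))

end Vale.Agent.P355.H41.L5
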