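import Vale.Agent.P355.H41.L5.D
import Vale.Agent.P355.H41.F1.Rg

namespace Vale.Agent.P355.H41.L5

open Vale.Agent.P355 Vale.Agent.P355.H147 Vale.Agent.P355.H998.E Vale.Agent.P355.H41.F1

theorem r94_94 : RW 5 3 3 D cls mv 94 94 (Nat.add 94 10) := RW.ck 94 94 10 (by decide +kernel)

theorem r94_104 : RW 5 3 3 D cls mv 94 104 (Nat.add 104 10) := RW.ck 94 104 10 (by decide +kernel)

theorem r94_114 : RW 5 3 3 D cls mv 94 114 (Nat.add 114 8) := RW.ck 94 114 8 (by decide +kernel)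

theorem c94 : CR 5 3 3 D cls mv 122 94 (Nat.succ 94) := CR.one 94 ((r94_94).trans ((r94_104).trans (r94_114)))

theorem r95_95 : RW 5 3 3 D cls mv 95 95 (Nat.add 95 10) := RW.ck 95 95 10 (by decide +kernel)

theorem r95_105 : RW 5 3 3 D cls mv 95 105 (Nat.add 105 10) := RW.ck 95 105 10 (by decide +kernel)

theorem r95_115 : RW 5 3 3 D cls mv 95 115 (Nat.add 115 7) := RW.ck 95 115 7 (by decide +kernel)

theorem c95 : CR 5 3 3 D cls mv 122 95 (Nat.succ 95) := CR.one 95 ((r95_95).trans ((r95_105).trans (r95_115)))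

theorem r96_96 : RW 5 3 3 D cls mv 96 96 (Nat.add 96 10) := RW.ck 96 96 10 (by decide +kernel)

theorem r96_106 : RW 5 3 3 D cls mv 96 106 (Nat.add 106 10) := RW.ck 96 106 10 (by decide +kernel)

theorem r96_116 : RW 5 3 3 D cls mv 96 116 (Nat.add 116 6) := RW.ck 96 116 6 (by decide +kernel)

theorem c96 : CR 5 3 3 D cls mv 122 96 (Nat.succ 96) := CR.one 96 ((r96_96).trans ((r96_106).trans (r96_116)))

theorem r97_97 : RW 5 3 3 D cls mv 97 97 (Nat.add 97 10) := RW.ck 97 97 10 (by decide +kernel)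

theorem r97_107 : RW 5 3 3 D cls mv 97 107 (Nat.add 107 10) := RW.ck 97 107 10 (by decide +kernel)

theorem r97_117 : RW 5 3 3 D cls mv 97 117 (Nat.add 117 5) := RW.ck 97 117 5 (by decide +kernel)

theorem c97 : CR 5 3 3 D cls mv 122 97 (Nat.succ 97) := CR.one 97 ((r97_97).trans ((r97_107).trans (r97_117)))

theorem cm74 : CR 5 3 3 D cls mv 122 94 98 := ((c94).trans (c95)).trans ((c96).trans (c97))

end Vale.Agent.P355.H41.L5
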