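import Vale.Agent.P355.H41.L5.D
import Vale.Agent.P355.H41.F1.Rg

namespace Vale.Agent.P355.H41.L5

open Vale.Agent.P355 Vale.Agent.P355.H147 Vale.Agent.P355.H998.E Vale.Agent.P355.H41.F1

theorem r98_98 : RW 5 3 3 D cls mv 98 98 (Nat.add 98 10) := RW.ck 98 98 10 (by decide +kernel)

theorem r98_108 : RW 5 3 3 D cls mv 98 108 (Nat.add 108 10) := RW.ck 98 108 10 (by decide +kernel)

theorem r98_118 : RW 5 3 3 D cls mv 98 118 (Nat.add 118 4) := RW.ck 98 118 4 (by decide +kernel)

theorem c98 : CR 5 3 3 D cls mv 122 98 (Nat.succ 98) := CR.one 98 ((r98_98).trans ((r98_108).trans (r98_118)))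

theorem r99_99 : RW 5 3 3 D cls mv 99 99 (Nat.add 99 10) := RW.ck 99 99 10 (by decide +kernel)

theorem r99_109 : RW 5 3 3 D cls mv 99 109 (Nat.add 109 10) := RW.ck 99 109 10 (by decide +kernel)

theorem r99_119 : RW 5 3 3 D cls mv 99 119 (Nat.add 119 3) := RW.ck 99 119 3 (by decide +kernel)

theorem c99 : CR 5 3 3 D cls mv 122 99 (Nat.succ 99) := CR.one 99 ((r99_99).trans ((r99_109).trans (r99_119)))

theorem r100_100 : RW 5 3 3 D cls mv 100 100 (Nat.add 100 10) := RW.ck 100 100 10 (by decide +kernel)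

theorem r100_110 : RW 5 3 3 D cls mv 100 110 (Nat.add 110 10) := RW.ck 100 110 10 (by decide +kernel)

theorem r100_120 : RW 5 3 3 D cls mv 100 120 (Nat.add 120 2) := RW.ck 100 120 2 (by decide +kernel)

theorem c100 : CR 5 3 3 D cls mv 122 100 (Nat.succ 100) := CR.one 100 ((r100_100).trans ((r100_110).trans (r100_120)))

theorem r101_101 : RW 5 3 3 D cls mv 101 101 (Nat.add 101 10) := RW.ck 101 101 10 (by decide +kernel)

theorem r101_111 : RW 5 3 3 D cls mv 101 111 (Nat.add 111 10) := RW.ck 101 111 10 (by decide +kernel)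

theorem r101_121 : RW 5 3 3 D cls mv 101 121 (Nat.add 121 1) := RW.ck 101 121 1 (by decide +kernel)

theorem c101 : CR 5 3 3 D cls mv 122 101 (Nat.succ 101) := CR.one 101 ((r101_101).trans ((r101_111).trans (r101_121)))

theorem r102_102 : RW 5 3 3 D cls mv 102 102 (Nat.add 102 10) := RW.ck 102 102 10 (by decide +kernel)

theorem r102_112 : RW 5 3 3 D cls mv 102 112 (Nat.add 112 10) := RW.ck 102 112 10 (by decide +kernel)

theorem c102 : CR 5 3 3 D cls mv 122 102 (Nat.succ 102) := CR.one 102 ((r102_102).trans (r102_112))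

theorem cm75 : CR 5 3 3 D cls mv 122 98 103 := ((c98).trans (c99)).trans ((c100).trans ((c101).trans (c102)))

end Vale.Agent.P355.H41.L5
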