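import Vale.Agent.P355.H41.L5.D
import Vale.Agent.P355.H41.F1.Rg

namespace Vale.Agent.P355.H41.L5

open Vale.Agent.P355 Vale.Agent.P355.H147 Vale.Agent.P355.H998.E Vale.Agent.P355.H41.F1

theorem r103_103 : RW 5 3 3 D cls mv 103 103 (Nat.add 103 10) := RW.ck 103 103 10 (by decide +kernel)

theorem r103_113 : RW 5 3 3 D cls mv 103 113 (Nat.add 113 9) := RW.ck 103 113 9 (by decide +kernel)

theorem c103 : CR 5 3 3 D cls mv 122 103 (Nat.succ 103) := CR.one 103 ((r103_103).trans (r103_113))

theorem r104_104 : RW 5 3 3 D cls mv 104 104 (Nat.add 104 10) := RW.ck 104 104 10 (by decide +kernel)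

theorem r104_114 : RW 5 3 3 D cls mv 104 114 (Nat.add 114 8) := RW.ck 104 114 8 (by decide +kernel)

theorem c104 : CR 5 3 3 D cls mv 122 104 (Nat.succ 104) := CR.one 104 ((r104_104).trans (r104_114))

theorem r105_105 : RW 5 3 3 D cls mv 105 105 (Nat.add 105 10) := RW.ck 105 105 10 (by decide +kernel)

theorem r105_115 : RW 5 3 3 D cls mv 105 115 (Nat.add 115 7) := RW.ck 105 115 7 (by decide +kernel)

theorem c105 : CR 5 3 3 D cls mv 122 105 (Nat.succ 105) := CR.one 105 ((r105_105).trans (r105_115))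

theorem r106_106 : RW 5 3 3 D cls mv 106 106 (Nat.add 106 10) := RW.ck 106 106 10 (by decide +kernel)

theorem r106_116 : RW 5 3 3 D cls mv 106 116 (Nat.add 116 6) := RW.ck 106 116 6 (by decide +kernel)

theorem c106 : CR 5 3 3 D cls mv 122 106 (Nat.succ 106) := CR.one 106 ((r106_106).trans (r106_116))

theorem r107_107 : RW 5 3 3 D cls mv 107 107 (Nat.add 107 10) := RW.ck 107 107 10 (by decide +kernel)

theorem r107_117 : RW 5 3 3 D cls mv 107 117 (Nat.add 117 5) := RW.ck 107 117 5 (by decide +kernel)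

theorem c107 : CR 5 3 3 D cls mv 122 107 (Nat.succ 107) := CR.one 107 ((r107_107).trans (r107_117))

theorem r108_108 : RW 5 3 3 D cls mv 108 108 (Nat.add 108 10) := RW.ck 108 108 10 (by decide +kernel)

theorem r108_118 : RW 5 3 3 D cls mv 108 118 (Nat.add 118 4) := RW.ck 108 118 4 (by decide +kernel)

theorem c108 : CR 5 3 3 D cls mv 122 108 (Nat.succ 108) := CR.one 108 ((r108_108).trans (r108_118))

theorem r109_109 : RW 5 3 3 D cls mv 109 109 (Nat.add 109 10) := RW.ck 109 109 10 (by decide +kernel)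

theorem r109_119 : RW 5 3 3 D cls mv 109 119 (Nat.add 119 3) := RW.ck 109 119 3 (by decide +kernel)

theorem c109 : CR 5 3 3 D cls mv 122 109 (Nat.succ 109) := CR.one 109 ((r109_109).trans (r109_119))

theorem r110_110 : RW 5 3 3 D cls mv 110 110 (Nat.add 110 10) := RW.ck 110 110 10 (by decide +kernel)

theorem r110_120 : RW 5 3 3 D cls mv 110 120 (Nat.add 120 2) := RW.ck 110 120 2 (by decide +kernel)

theorem c110 : CR 5 3 3 D cls mv 122 110 (Nat.succ 110) := CR.one 110 ((r110_110).trans (r110_120))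

theorem cm76 : CR 5 3 3 D cls mv 122 103 111 := (((c103).trans (c104)).trans ((c105).trans (c106))).trans (((c107).trans (c108)).trans ((c109).trans (c110)))

end Vale.Agent.P355.H41.L5
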