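import Vale.Agent.P355.H41.L5.D
import Vale.Agent.P355.H41.F1.Rg

namespace Vale.Agent.P355.H41.L5

open Vale.Agent.P355 Vale.Agent.P355.H147 Vale.Agent.P355.H998.E Vale.Agent.P355.H41.F1

theorem r111_111 : RW 5 3 3 D cls mv 111 111 (Nat.add 111 10) := RW.ck 111 111 10 (by decide +kernel)

theorem r111_121 : RW 5 3 3 D cls mv 111 121 (Nat.add 121 1) := RW.ck 111 121 1 (by decide +kernel)

theorem c111 : CR 5 3 3 D cls mv 122 111 (Nat.succ 111) := CR.one 111 ((r111_111).trans (r111_121))

theorem r112_112 : RW 5 3 3 D cls mv 112 112 (Nat.add 112 10) := RW.ck 112 112 10 (by decide +kernel)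

theorem c112 : CR 5 3 3 D cls mv 122 112 (Nat.succ 112) := CR.one 112 (r112_112)

theorem r113_113 : RW 5 3 3 D cls mv 113 113 (Nat.add 113 9) := RW.ck 113 113 9 (by decide +kernel)

theorem c113 : CR 5 3 3 D cls mv 122 113 (Nat.succ 113) := CR.one 113 (r113_113)

theorem r114_114 : RW 5 3 3 D cls mv 114 114 (Nat.add 114 8) := RW.ck 114 114 8 (by decide +kernel)

theorem c114 : CR 5 3 3 D cls mv 122 114 (Nat.succ 114) := CR.one 114 (r114_114)

theorem r115_115 : RW 5 3 3 D cls mv 115 115 (Nat.add 115 7) := RW.ck 115 115 7 (by decide +kernel)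

theorem c115 : CR 5 3 3 D cls mv 122 115 (Nat.succ 115) := CR.one 115 (r115_115)

theorem r116_116 : RW 5 3 3 D cls mv 116 116 (Nat.add 116 6) := RW.ck 116 116 6 (by decide +kernel)

theorem c116 : CR 5 3 3 D cls mv 122 116 (Nat.succ 116) := CR.one 116 (r116_116)

theorem r117_117 : RW 5 3 3 D cls mv 117 117 (Nat.add 117 5) := RW.ck 117 117 5 (by decide +kernel)

theorem c117 : CR 5 3 3 D cls mv 122 117 (Nat.succ 117) := CR.one 117 (r117_117)

theorem r118_118 : RW 5 3 3 D cls mv 118 118 (Nat.add 118 4) := RW.ck 118 118 4 (by decide +kernel)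

theorem c118 : CR 5 3 3 D cls mv 122 118 (Nat.succ 118) := CR.one 118 (r118_118)

theorem r119_119 : RW 5 3 3 D cls mv 119 119 (Nat.add 119 3) := RW.ck 119 119 3 (by decide +kernel)

theorem c119 : CR 5 3 3 D cls mv 122 119 (Nat.succ 119) := CR.one 119 (r119_119)

theorem r120_120 : RW 5 3 3 D cls mv 120 120 (Nat.add 120 2) := RW.ck 120 120 2 (by decide +kernel)

theorem c120 : CR 5 3 3 D cls mv 122 120 (Nat.succ 120) := CR.one 120 (r120_120)

theorem r121_121 : RW 5 3 3 D cls mv 121 121 (Nat.add 121 1) := RW.ck 121 121 1 (by decide +kernel)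

theorem c121 : CR 5 3 3 D cls mv 122 121 (Nat.succ 121) := CR.one 121 (r121_121)

theorem cm77 : CR 5 3 3 D cls mv 122 111 122 := (((c111).trans (c112)).trans ((c113).trans ((c114).trans (c115)))).trans (((c116).trans ((c117).trans (c118))).trans ((c119).trans ((c120).trans (c121))))

end Vale.Agent.P355.H41.L5
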