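import Vale.Agent.P355.H41.L5.D
import Vale.Agent.P355.H41.F1.Rg

namespace Vale.Agent.P355.H41.L5

open Vale.Agent.P355 Vale.Agent.P355.H147 Vale.Agent.P355.H998.E Vale.Agent.P355.H41.F1

theorem r8_8 : RW 5 3 3 D cls mv 8 8 (Nat.add 8 10) := RW.ck 8 8 10 (by decide +kernel)

theorem r8_18 : RW 5 3 3 D cls mv 8 18 (Nat.add 18 10) := RW.ck 8 18 10 (by decide +kernel)

theorem r8_28 : RW 5 3 3 D cls mv 8 28 (Nat.add 28 10) := RW.ck 8 28 10 (by decide +kernel)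

theorem r8_38 : RW 5 3 3 D cls mv 8 38 (Nat.add 38 10) := RW.ck 8 38 10 (by decide +kernel)

theorem r8_48 : RW 5 3 3 D cls mv 8 48 (Nat.add 48 10) := RW.ck 8 48 10 (by decide +kernel)

theorem r8_58 : RW 5 3 3 D cls mv 8 58 (Nat.add 58 10) := RW.ck 8 58 10 (by decide +kernel)

theorem r8_68 : RW 5 3 3 D cls mv 8 68 (Nat.add 68 10) := RW.ck 8 68 10 (by decide +kernel)

theorem r8_78 : RW 5 3 3 D cls mv 8 78 (Nat.add 78 10) := RW.ck 8 78 10 (by decide +kernel)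

theorem r8_88 : RW 5 3 3 D cls mv 8 88 (Nat.add 88 10) := RW.ck 8 88 10 (by decide +kernel)

theorem r8_98 : RW 5 3 3 D cls mv 8 98 (Nat.add 98 10) := RW.ck 8 98 10 (by decide +kernel)

theorem r8_108 : RW 5 3 3 D cls mv 8 108 (Nat.add 108 10) := RW.ck 8 108 10 (by decide +kernel)

theorem r8_118 : RW 5 3 3 D cls mv 8 118 (Nat.add 118 4) := RW.ck 8 118 4 (by decide +kernel)

theorem c8 : CR 5 3 3 D cls mv 122 8 (Nat.succ 8) := CR.one 8 ((((r8_8).trans ((r8_18).trans (r8_28))).trans ((r8_38).trans ((r8_48).trans (r8_58)))).trans (((r8_68).trans ((r8_78).trans (r8_88))).trans ((r8_98).trans ((r8_108).trans (r8_118)))))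

theorem cm8 : CR 5 3 3 D cls mv 122 8 9 := c8

end Vale.Agent.P355.H41.L5
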