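import Vale.Agent.P355.H41.L5.D
import Vale.Agent.P355.H41.F1.Rg

namespace Vale.Agent.P355.H41.L5

open Vale.Agent.P355 Vale.Agent.P355.H147 Vale.Agent.P355.H998.E Vale.Agent.P355.H41.F1

theorem r9_9 : RW 5 3 3 D cls mv 9 9 (Nat.add 9 10) := RW.ck 9 9 10 (by decide +kernel)

theorem r9_19 : RW 5 3 3 D cls mv 9 19 (Nat.add 19 10) := RW.ck 9 19 10 (by decide +kernel)

theorem r9_29 : RW 5 3 3 D cls mv 9 29 (Nat.add 29 10) := RW.ck 9 29 10 (by decide +kernel)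

theorem r9_39 : RW 5 3 3 D cls mv 9 39 (Nat.add 39 10) := RW.ck 9 39 10 (by decide +kernel)

theorem r9_49 : RW 5 3 3 D cls mv 9 49 (Nat.add 49 10) := RW.ck 9 49 10 (by decide +kernel)

theorem r9_59 : RW 5 3 3 D cls mv 9 59 (Nat.add 59 10) := RW.ck 9 59 10 (by decide +kernel)

theorem r9_69 : RW 5 3 3 D cls mv 9 69 (Nat.add 69 10) := RW.ck 9 69 10 (by decide +kernel)

theorem r9_79 : RW 5 3 3 D cls mv 9 79 (Nat.add 79 10) := RW.ck 9 79 10 (by decide +kernel)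

theorem r9_89 : RW 5 3 3 D cls mv 9 89 (Nat.add 89 10) := RW.ck 9 89 10 (by decide +kernel)

theorem r9_99 : RW 5 3 3 D cls mv 9 99 (Nat.add 99 10) := RW.ck 9 99 10 (by decide +kernel)

theorem r9_109 : RW 5 3 3 D cls mv 9 109 (Nat.add 109 10) := RW.ck 9 109 10 (by decide +kernel)

theorem r9_119 : RW 5 3 3 D cls mv 9 119 (Nat.add 119 3) := RW.ck 9 119 3 (by decide +kernel)

theorem c9 : CR 5 3 3 D cls mv 122 9 (Nat.succ 9) := CR.one 9 ((((r9_9).trans ((r9_19).trans (r9_29))).trans ((r9_39).trans ((r9_49).trans (r9_59)))).trans (((r9_69).trans ((r9_79).trans (r9_89))).trans ((r9_99).trans ((r9_109).trans (r9_119)))))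

theorem cm9 : CR 5 3 3 D cls mv 122 9 10 := c9

end Vale.Agent.P355.H41.L5
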