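import Vale.Agent.P355.H41.L5.Mv
import Vale.Agent.P355.H41.L5.E0
import Vale.Agent.P355.H41.L5.E1
import Vale.Agent.P355.H41.L5.E2
import Vale.Agent.P355.H41.L5.E3
import Vale.Agent.P355.H41.L5.E4
import Vale.Agent.P355.H41.L5.E5
import Vale.Agent.P355.H41.L5.E6
import Vale.Agent.P355.H41.L5.E7

namespace Vale.Agent.P355.H41.L5

open Vale.Agent.P355 Vale.Agent.P355.H147 Vale.Agent.P355.H998.E Vale.Agent.P355.H41.F1

def EL : List ℕ := [e0, e1, e2, e3, e4, e5, e6, e7, e8, e9, e10, e11, e12, e13, e14, e15, e16, e17, e18, e19, e20, e21, e22, e23, e24, e25, e26, e27, e28, e29, e30, e31, e32, e33, e34, e35, e36, e37, e38, e39, e40, e41, e42, e43, e44, e45, e46, e47, e48, e49, e50, e51, e52, e53, e54, e55, e56, e57, e58, e59, e60, e61, e62, e63, e64, e65, e66, e67, e68, e69, e70, e71, e72, e73, e74, e75, e76, e77, e78, e79, e80, e81, e82, e83, e84, e85, e86, e87, e88, e89, e90, e91, e92, e93, e94, e95, e96, e97, e98, e99, e100, e101, e102, e103, e104, e105, e106, e107, e108, e109, e110,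 e111, e112, e113, e114, e115, e116, e117, e118, e119, e120, e121]

def D : ED := ⟨6, 40, T, G, XL, EL, BP⟩

theorem ck : D.ck 5 3 3 = true := by decide +kernel

theorem hnk : D.XL.length = 122 := by decide +kernel

end Vale.Agent.P355.H41.L5
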