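import Vale.Agent.P355.H41.L5.Dt
import Vale.Agent.P355.H41.L5.M0
import Vale.Agent.P355.H41.L5.M1
import Vale.Agent.P355.H41.L5.M2
import Vale.Agent.P355.H41.L5.M3
import Vale.Agent.P355.H41.L5.M4
import Vale.Agent.P355.H41.L5.M5
import Vale.Agent.P355.H41.L5.M6
import Vale.Agent.P355.H41.L5.M7
import Vale.Agent.P355.H41.L5.M8
import Vale.Agent.P355.H41.L5.M9
import Vale.Agent.P355.H41.L5.M10
import Vale.Agent.P355.H41.L5.M11
import Vale.Agent.P355.H41.L5.M12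
import Vale.Agent.P355.H41.L5.M13
import Vale.Agent.P355.H41.L5.M14
import Vale.Agent.P355.H41.L5.M15

namespace Vale.Agent.P355.H41.L5

open Vale.Agent.P355 Vale.Agent.P355.H147 Vale.Agent.P355.H998.E Vale.Agent.P355.H41.F1

noncomputable def mvT : TT := (TT.nd (TT.nd (TT.nd (TT.nd (TT.nd mvT_0 mvT_16) (TT.nd mvT_8 mvT_24)) (TT.nd (TT.nd mvT_4 mvT_20) (TT.nd mvT_12 mvT_28))) (TT.nd (TT.nd (TT.nd mvT_2 mvT_18) (TT.nd mvT_10 mvT_26)) (TT.nd (TT.nd mvT_6 mvT_22) (TT.nd mvT_14 mvT_30)))) (TT.nd (TT.nd (TT.nd (TT.nd mvT_1 mvT_17) (TT.nd mvT_9 mvT_25)) (TT.nd (TT.nd mvT_5 mvT_21) (TT.nd mvT_13 mvT_29))) (TT.nd (TT.nd (TT.nd mvT_3 mvT_19) (TT.nd mvT_11 mvT_27)) (TT.nd (TT.nd mvT_7 mvT_23) (TT.nd mvT_15 mvT_31)))))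

noncomputable def mv (i : ℕ) : ℕ := TT.atX 6 63 156 0xfffffffffffffffffffffffffffffffffffffff mvT i

theorem mvok : TT.allX 64 156 0xfffffffffffffffffffffffffffffffffffffff (mvOKw 5) mvT = true := (all_nd (all_nd (all_nd (all_nd (all_nd ok_0 ok_16) (all_nd ok_8 ok_24)) (all_nd (all_nd ok_4 ok_20) (all_nd ok_12 ok_28))) (all_nd (all_nd (all_nd ok_2 ok_18) (all_nd ok_10 ok_26)) (all_nd (all_nd ok_6 ok_22) (all_nd ok_14 ok_30)))) (all_nd (all_nd (all_nd (all_nd ok_1 ok_17) (all_nd ok_9 ok_25)) (all_nd (all_nd ok_5 ok_21) (all_nd ok_13 ok_29))) (all_nd (all_nd (all_nd ok_3 ok_19) (all_nd ok_11 ok_27)) (all_nd (all_nd ok_7 ok_23) (all_nd ok_15 ok_31)))))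

theorem hmv (i : ℕ) : mvOKw 5 (mv i) = true := TT.atX_spec mvok rfl i

end Vale.Agent.P355.H41.L5
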