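import Vale.Agent.P355.H41.L5.T
import Vale.Agent.P355.H41.F1.Rm
import Vale.Agent.P355.H41.L5.V1
import Vale.Agent.P355.H41.L5.V0

namespace Vale.Agent.P355.H41.L5

open Vale.Agent.P355 Vale.Agent.P355.H147 Vale.Agent.P355.H998.E Vale.Agent.P355.H41.F1

theorem hP1 : Ch t true 15 21 P0 P1 :=
  Ch_ckM (TT := 6) (rw := 40) (o := 33554432) (fs := fs) tok rfl rfl (by decide +kernel) true 6 15 21 _ _ (by decide +kernel)

end Vale.Agent.P355.H41.L5
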