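import Vale.Agent.P355.H41.L5.C0
import Vale.Agent.P355.H41.L5.C1
import Vale.Agent.P355.H41.L5.C2
import Vale.Agent.P355.H41.L5.C3
import Vale.Agent.P355.H41.L5.C4
import Vale.Agent.P355.H41.L5.C5
import Vale.Agent.P355.H41.L5.C6
import Vale.Agent.P355.H41.L5.C7
import Vale.Agent.P355.H41.L5.C8
import Vale.Agent.P355.H41.L5.C9
import Vale.Agent.P355.H41.L5.C10
import Vale.Agent.P355.H41.L5.C11
import Vale.Agent.P355.H41.L5.C12
import Vale.Agent.P355.H41.L5.C13
import Vale.Agent.P355.H41.L5.C14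
import Vale.Agent.P355.H41.L5.C15
import Vale.Agent.P355.H41.L5.C16
import Vale.Agent.P355.H41.L5.C17
import Vale.Agent.P355.H41.L5.C18
import Vale.Agent.P355.H41.L5.C19
import Vale.Agent.P355.H41.L5.C20
import Vale.Agent.P355.H41.L5.C21
import Vale.Agent.P355.H41.L5.C22
import Vale.Agent.P355.H41.L5.C23
import Vale.Agent.P355.H41.L5.C24
import Vale.Agent.P355.H41.L5.C25
import Vale.Agent.P355.H41.L5.C26
import Vale.Agent.P355.H41.L5.C27
import Vale.Agent.P355.H41.L5.C28
import Vale.Agent.P355.H41.L5.C29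
import Vale.Agent.P355.H41.L5.C30
import Vale.Agent.P355.H41.L5.C31
import Vale.Agent.P355.H41.L5.C32
import Vale.Agent.P355.H41.L5.C33
import Vale.Agent.P355.H41.L5.C34
import Vale.Agent.P355.H41.L5.C35
import Vale.Agent.P355.H41.L5.C36
import Vale.Agent.P355.H41.L5.C37
import Vale.Agent.P355.H41.L5.C38
import Vale.Agent.P355.H41.L5.C39
import Vale.Agent.P355.H41.L5.C40
import Vale.Agent.P355.H41.L5.C41
import Vale.Agent.P355.H41.L5.C42
import Vale.Agent.P355.H41.L5.C43
import Vale.Agent.P355.H41.L5.C44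
import Vale.Agent.P355.H41.L5.C45
import Vale.Agent.P355.H41.L5.C46
import Vale.Agent.P355.H41.L5.C47
import Vale.Agent.P355.H41.L5.C48
import Vale.Agent.P355.H41.L5.C49
import Vale.Agent.P355.H41.L5.C50
import Vale.Agent.P355.H41.L5.C51
import Vale.Agent.P355.H41.L5.C52
import Vale.Agent.P355.H41.L5.C53
import Vale.Agent.P355.H41.L5.C54
import Vale.Agent.P355.H41.L5.C55
import Vale.Agent.P355.H41.L5.C56
import Vale.Agent.P355.H41.L5.C57
import Vale.Agent.P355.H41.L5.C58
import Vale.Agent.P355.H41.L5.C59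
import Vale.Agent.P355.H41.L5.C60
import Vale.Agent.P355.H41.L5.C61
import Vale.Agent.P355.H41.L5.C62
import Vale.Agent.P355.H41.L5.C63
import Vale.Agent.P355.H41.L5.C64
import Vale.Agent.P355.H41.L5.C65
import Vale.Agent.P355.H41.L5.C66
import Vale.Agent.P355.H41.L5.C67
import Vale.Agent.P355.H41.L5.C68
import Vale.Agent.P355.H41.L5.C69
import Vale.Agent.P355.H41.L5.C70
import Vale.Agent.P355.H41.L5.C71
import Vale.Agent.P355.H41.L5.C72
import Vale.Agent.P355.H41.L5.C73
import Vale.Agent.P355.H41.L5.C74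
import Vale.Agent.P355.H41.L5.C75
import Vale.Agent.P355.H41.L5.C76
import Vale.Agent.P355.H41.L5.C77

namespace Vale.Agent.P355.H41.L5

open Vale.Agent.P355 Vale.Agent.P355.H147 Vale.Agent.P355.H998.E Vale.Agent.P355.H41.F1

theorem hR : CR 5 3 3 D cls mv 122 0 122 := ((((((cm0).trans (cm1)).trans ((cm2).trans (cm3))).trans (((cm4).trans (cm5)).trans ((cm6).trans ((cm7).trans (cm8))))).trans ((((cm9).trans (cm10)).trans ((cm11).trans ((cm12).trans (cm13)))).trans (((cm14).trans (cm15)).trans ((cm16).trans ((cm17).trans (cm18)))))).trans (((((cm19).trans (cm20)).trans ((cm21).trans ((cm22).trans (cm23)))).trans (((cm24).trans (cm25)).trans ((cm26).trans ((cm27).trans (cm28))))).trans ((((cm29).trans (cm30)).trans ((cm31).trans ((cm32).trans (cm33)))).trans (((cm34).trans (cm35)).trans ((cm36).trans ((cm37).trans (cm38))))))).trans ((((((cm39).trans (cm40)).trans ((cm41).trans (cm42))).trans (((cm43).trans (cm44)).trans ((cm45).trans ((cm46).trans (cm47))))).trans ((((cm48).trans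 (cm49)).trans ((cm50).trans ((cm51).trans (cm52)))).trans (((cm53).trans (cm54)).trans ((cm55).trans ((cm56).trans (cm57)))))).trans (((((cm58).trans (cm59)).trans ((cm60).trans ((cm61).trans (cm62)))).trans (((cm63).trans (cm64)).trans ((cm65).trans ((cm66).trans (cm67))))).trans ((((cm68).trans (cm69)).trans ((cm70).trans ((cm71).trans (cm72)))).trans (((cm73).trans (cm74)).trans ((cm75).trans ((cm76).trans (cm77)))))))

theorem sok0 {m : ℕ} {B : Fin m → M6} (hB : IsMUBs B) :
    SOk D.G.n 122 (D.G.act 5 3 3) G.nu ((D.T.ty 5).M B)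
      (fun i => (D.XL.getD i pf0).dec 5 3 3) ((6 : ℝ) ^ D.TT) (RcE D.TT D.rw)
      (fun i => cvB B 5 (cls i)) D.BP D.EL :=
  sokR (k := 3) (l := 3) hB (by norm_num) hmv ck hnk hR

end Vale.Agent.P355.H41.L5
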