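import Vale.Agent.P355.H41.L5.T
import Vale.Agent.P355.H41.L5.Sk
import Vale.Agent.P355.H41.L5.RP0
import Vale.Agent.P355.H41.L5.RP1
import Vale.Agent.P355.H41.L5.RP2
import Vale.Agent.P355.H41.L5.RP3
import Vale.Agent.P355.H41.L5.RP4
import Vale.Agent.P355.H41.L5.RP5
import Vale.Agent.P355.H41.L5.RP6
import Vale.Agent.P355.H41.L5.RP7
import Vale.Agent.P355.H41.L5.RP8
import Vale.Agent.P355.H41.L5.RP9
import Vale.Agent.P355.H41.L5.RP10
import Vale.Agent.P355.H41.L5.RP11
import Vale.Agent.P355.H41.L5.RP12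
import Vale.Agent.P355.H41.L5.RP13
import Vale.Agent.P355.H41.L5.RP14
import Vale.Agent.P355.H41.L5.RP15
import Vale.Agent.P355.H41.L5.RP16
import Vale.Agent.P355.H41.L5.RP17
import Vale.Agent.P355.H41.L5.RP18
import Vale.Agent.P355.H41.L5.RP19
import Vale.Agent.P355.H41.L5.RP20
import Vale.Agent.P355.H41.L5.RP21
import Vale.Agent.P355.H41.L5.RP22
import Vale.Agent.P355.H41.L5.RP23
import Vale.Agent.P355.H41.L5.RP24
import Vale.Agent.P355.H41.L5.RP25
import Vale.Agent.P355.H41.L5.RP26
import Vale.Agent.P355.H41.L5.RP27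
import Vale.Agent.P355.H41.L5.RP28
import Vale.Agent.P355.H41.L5.RP29
import Vale.Agent.P355.H41.L5.RP30
import Vale.Agent.P355.H41.L5.RP31
import Vale.Agent.P355.H41.L5.RP32
import Vale.Agent.P355.H41.L5.RP33
import Vale.Agent.P355.H41.L5.RP34
import Vale.Agent.P355.H41.L5.RP35
import Vale.Agent.P355.H41.L5.RP36
import Vale.Agent.P355.H41.L5.RP37
import Vale.Agent.P355.H41.L5.RP38
import Vale.Agent.P355.H41.L5.RP39
import Vale.Agent.P355.H41.L5.RP40
import Vale.Agent.P355.H41.L5.RP41
import Vale.Agent.P355.H41.L5.RP42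
import Vale.Agent.P355.H41.L5.RP43
import Vale.Agent.P355.H41.L5.RP44
import Vale.Agent.P355.H41.L5.RP45
import Vale.Agent.P355.H41.L5.RP46
import Vale.Agent.P355.H41.L5.RP47
import Vale.Agent.P355.H41.L5.RP48
import Vale.Agent.P355.H41.L5.RP49
import Vale.Agent.P355.H41.L5.RP50
import Vale.Agent.P355.H41.L5.RP51
import Vale.Agent.P355.H41.L5.RP52
import Vale.Agent.P355.H41.L5.RP53
import Vale.Agent.P355.H41.L5.RP54
import Vale.Agent.P355.H41.L5.RP55
import Vale.Agent.P355.H41.L5.RP56
import Vale.Agent.P355.H41.L5.RP57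
import Vale.Agent.P355.H41.L5.RP58
import Vale.Agent.P355.H41.L5.RP59
import Vale.Agent.P355.H41.L5.RP60
import Vale.Agent.P355.H41.L5.RP61
import Vale.Agent.P355.H41.L5.RP62
import Vale.Agent.P355.H41.L5.RP63
import Vale.Agent.P355.H41.L5.RP64
import Vale.Agent.P355.H41.L5.RP65
import Vale.Agent.P355.H41.L5.RP66
import Vale.Agent.P355.H41.L5.RP67
import Vale.Agent.P355.H41.L5.RP68
import Vale.Agent.P355.H41.L5.RP69
import Vale.Agent.P355.H41.L5.RP70
import Vale.Agent.P355.H41.L5.RP71
import Vale.Agent.P355.H41.L5.RP72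
import Vale.Agent.P355.H41.L5.RP73
import Vale.Agent.P355.H41.L5.RP74
import Vale.Agent.P355.H41.L5.RP75
import Vale.Agent.P355.H41.L5.RP76
import Vale.Agent.P355.H41.L5.RP77
import Vale.Agent.P355.H41.L5.RQ0
import Vale.Agent.P355.H41.L5.RQ1
import Vale.Agent.P355.H41.L5.RQ2
import Vale.Agent.P355.H41.L5.RQ3
import Vale.Agent.P355.H41.L5.RQ4
import Vale.Agent.P355.H41.L5.RQ5
import Vale.Agent.P355.H41.L5.RQ6
import Vale.Agent.P355.H41.L5.RQ7
import Vale.Agent.P355.H41.L5.RQ8
import Vale.Agent.P355.H41.L5.RQ9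
import Vale.Agent.P355.H41.L5.RQ10
import Vale.Agent.P355.H41.L5.RQ11
import Vale.Agent.P355.H41.L5.RQ12
import Vale.Agent.P355.H41.L5.RQ13
import Vale.Agent.P355.H41.L5.RQ14
import Vale.Agent.P355.H41.L5.RQ15
import Vale.Agent.P355.H41.L5.RQ16
import Vale.Agent.P355.H41.L5.RQ17
import Vale.Agent.P355.H41.L5.RQ18
import Vale.Agent.P355.H41.L5.RQ19
import Vale.Agent.P355.H41.L5.RQ20
import Vale.Agent.P355.H41.L5.RQ21
import Vale.Agent.P355.H41.L5.RQ22
import Vale.Agent.P355.H41.L5.RQ23
import Vale.Agent.P355.H41.L5.RQ24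
import Vale.Agent.P355.H41.L5.RQ25
import Vale.Agent.P355.H41.L5.RQ26
import Vale.Agent.P355.H41.L5.RQ27
import Vale.Agent.P355.H41.L5.RQ28
import Vale.Agent.P355.H41.L5.RQ29
import Vale.Agent.P355.H41.L5.RQ30
import Vale.Agent.P355.H41.L5.RQ31
import Vale.Agent.P355.H41.L5.RQ32
import Vale.Agent.P355.H41.L5.RQ33
import Vale.Agent.P355.H41.L5.RQ34
import Vale.Agent.P355.H41.L5.RQ35
import Vale.Agent.P355.H41.L5.RQ36
import Vale.Agent.P355.H41.L5.RQ37
import Vale.Agent.P355.H41.L5.RQ38
import Vale.Agent.P355.H41.L5.RQ39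
import Vale.Agent.P355.H41.L5.RQ40
import Vale.Agent.P355.H41.L5.RQ41
import Vale.Agent.P355.H41.L5.RQ42
import Vale.Agent.P355.H41.L5.RQ43
import Vale.Agent.P355.H41.L5.RQ44
import Vale.Agent.P355.H41.L5.RQ45
import Vale.Agent.P355.H41.L5.RQ46
import Vale.Agent.P355.H41.L5.RQ47
import Vale.Agent.P355.H41.L5.RQ48
import Vale.Agent.P355.H41.L5.RQ49
import Vale.Agent.P355.H41.L5.RQ50
import Vale.Agent.P355.H41.L5.RQ51
import Vale.Agent.P355.H41.L5.RQ52
import Vale.Agent.P355.H41.L5.RQ53
import Vale.Agent.P355.H41.L5.RQ54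
import Vale.Agent.P355.H41.L5.RQ55
import Vale.Agent.P355.H41.L5.RQ56
import Vale.Agent.P355.H41.L5.RQ57
import Vale.Agent.P355.H41.L5.RQ58
import Vale.Agent.P355.H41.L5.RQ59
import Vale.Agent.P355.H41.L5.RQ60
import Vale.Agent.P355.H41.L5.RQ61
import Vale.Agent.P355.H41.L5.RQ62
import Vale.Agent.P355.H41.L5.RQ63
import Vale.Agent.P355.H41.L5.RQ64
import Vale.Agent.P355.H41.L5.RQ65
import Vale.Agent.P355.H41.L5.RQ66
import Vale.Agent.P355.H41.L5.RQ67
import Vale.Agent.P355.H41.L5.RQ68
import Vale.Agent.P355.H41.L5.RQ69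
import Vale.Agent.P355.H41.L5.RQ70
import Vale.Agent.P355.H41.L5.RQ71
import Vale.Agent.P355.H41.L5.RQ72
import Vale.Agent.P355.H41.L5.RQ73
import Vale.Agent.P355.H41.L5.RQ74
import Vale.Agent.P355.H41.L5.RQ75
import Vale.Agent.P355.H41.L5.RQ76
import Vale.Agent.P355.H41.L5.RQ77

namespace Vale.Agent.P355.H41.L5

open Vale.Agent.P355 Vale.Agent.P355.H147 Vale.Agent.P355.H998.E Vale.Agent.P355.H41.F1

theorem sok {m : ℕ} {B : Fin m → M6} (hB : IsMUBs B) :
    SOk t.n 122 (D.G.act 5 3 3) G.nu ((D.T.ty 5).M B)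
      (fun i => (D.XL.getD i pf0).dec 5 3 3) ((6 : ℝ) ^ D.TT) t.R
      (fun i => cvB B 5 (cls i)) t.BP t.EL :=
  sok0 hB

theorem hP : Ch t true 0 122 0 P77 := (((((((((((((((((((((((((((((((((((((((((((((((((((((((((((((((((((((((((((((hP0).trans hP1 (by norm_num) (by norm_num)).trans hP2 (by norm_num) (by norm_num)).trans hP3 (by norm_num) (by norm_num)).trans hP4 (by norm_num) (by norm_num)).trans hP5 (by norm_num) (by norm_num)).trans hP6 (by norm_num) (by norm_num)).trans hP7 (by norm_num) (by norm_num)).trans hP8 (by norm_num) (by norm_num)).trans hP9 (by norm_num) (by norm_num)).trans hP10 (by norm_num) (by norm_num)).trans hP11 (by norm_num) (by norm_num)).trans hP12 (by norm_num) (by norm_num)).trans hP13 (by norm_num) (by norm_num)).trans hP14 (by norm_num) (by norm_num)).trans hP15 (by norm_num) (by norm_num)).trans hP16 (by norm_num) (by norm_num)).trans hP17 (by norm_num) (by norm_num)).trans hP18 (by norm_num) (by norm_num)).trans hP19 (by norm_num) (by norm_num)).trans hP20 (by norm_num)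 (by norm_num)).trans hP21 (by norm_num) (by norm_num)).trans hP22 (by norm_num) (by norm_num)).trans hP23 (by norm_num) (by norm_num)).trans hP24 (by norm_num) (by norm_num)).trans hP25 (by norm_num) (by norm_num)).trans hP26 (by norm_num) (by norm_num)).trans hP27 (by norm_num) (by norm_num)).trans hP28 (by norm_num) (by norm_num)).trans hP29 (by norm_num) (by norm_num)).trans hP30 (by norm_num) (by norm_num)).trans hP31 (by norm_num) (by norm_num)).trans hP32 (by norm_num) (by norm_num)).trans hP33 (by norm_num) (by norm_num)).trans hP34 (by norm_num) (by norm_num)).trans hP35 (by norm_num) (by norm_num)).trans hP36 (by norm_num) (by norm_num)).trans hP37 (by norm_num) (by norm_num)).trans hP38 (by norm_num) (by norm_num)).trans hP39 (by norm_num) (by norm_num)).trans hP40 (by norm_num) (by norm_num)).trans hP41 (by norm_num) (by norm_num)).trans hP42 (by norm_num) (by norm_num)).trans hP43 (by norm_num) (by norm_num)).trans hP44 (by norm_num) (by norm_num)).trans hP45 (by norm_num) (by norm_num)).trans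 hP46 (by norm_num) (by norm_num)).trans hP47 (by norm_num) (by norm_num)).trans hP48 (by norm_num) (by norm_num)).trans hP49 (by norm_num) (by norm_num)).trans hP50 (by norm_num) (by norm_num)).trans hP51 (by norm_num) (by norm_num)).trans hP52 (by norm_num) (by norm_num)).trans hP53 (by norm_num) (by norm_num)).trans hP54 (by norm_num) (by norm_num)).trans hP55 (by norm_num) (by norm_num)).trans hP56 (by norm_num) (by norm_num)).trans hP57 (by norm_num) (by norm_num)).trans hP58 (by norm_num) (by norm_num)).trans hP59 (by norm_num) (by norm_num)).trans hP60 (by norm_num) (by norm_num)).trans hP61 (by norm_num) (by norm_num)).trans hP62 (by norm_num) (by norm_num)).trans hP63 (by norm_num) (by norm_num)).trans hP64 (by norm_num) (by norm_num)).trans hP65 (by norm_num) (by norm_num)).trans hP66 (by norm_num) (by norm_num)).trans hP67 (by norm_num) (by norm_num)).trans hP68 (by norm_num) (by norm_num)).trans hP69 (by norm_num) (by norm_num)).trans hP70 (by norm_num) (by norm_num)).trans hP71 (by norm_num)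 (by norm_num)).trans hP72 (by norm_num) (by norm_num)).trans hP73 (by norm_num) (by norm_num)).trans hP74 (by norm_num) (by norm_num)).trans hP75 (by norm_num) (by norm_num)).trans hP76 (by norm_num) (by norm_num)).trans hP77 (by norm_num) (by norm_num)

theorem hQ : Ch t false 0 122 0 Q77 := (((((((((((((((((((((((((((((((((((((((((((((((((((((((((((((((((((((((((((((hQ0).trans hQ1 (by norm_num) (by norm_num)).trans hQ2 (by norm_num) (by norm_num)).trans hQ3 (by norm_num) (by norm_num)).trans hQ4 (by norm_num) (by norm_num)).trans hQ5 (by norm_num) (by norm_num)).trans hQ6 (by norm_num) (by norm_num)).trans hQ7 (by norm_num) (by norm_num)).trans hQ8 (by norm_num) (by norm_num)).trans hQ9 (by norm_num) (by norm_num)).trans hQ10 (by norm_num) (by norm_num)).trans hQ11 (by norm_num) (by norm_num)).trans hQ12 (by norm_num) (by norm_num)).trans hQ13 (by norm_num) (by norm_num)).trans hQ14 (by norm_num) (by norm_num)).trans hQ15 (by norm_num) (by norm_num)).trans hQ16 (by norm_num) (by norm_num)).trans hQ17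 (by norm_num) (by norm_num)).trans hQ18 (by norm_num) (by norm_num)).trans hQ19 (by norm_num) (by norm_num)).trans hQ20 (by norm_num) (by norm_num)).trans hQ21 (by norm_num) (by norm_num)).trans hQ22 (by norm_num) (by norm_num)).trans hQ23 (by norm_num) (by norm_num)).trans hQ24 (by norm_num) (by norm_num)).trans hQ25 (by norm_num) (by norm_num)).trans hQ26 (by norm_num) (by norm_num)).trans hQ27 (by norm_num) (by norm_num)).trans hQ28 (by norm_num) (by norm_num)).trans hQ29 (by norm_num) (by norm_num)).trans hQ30 (by norm_num) (by norm_num)).trans hQ31 (by norm_num) (by norm_num)).trans hQ32 (by norm_num) (by norm_num)).trans hQ33 (by norm_num) (by norm_num)).trans hQ34 (by norm_num) (by norm_num)).trans hQ35 (by norm_num) (by norm_num)).trans hQ36 (by norm_num) (by norm_num)).trans hQ37 (by norm_num) (by norm_num)).trans hQ38 (by norm_num) (by norm_num)).trans hQ39 (by norm_num) (by norm_num)).trans hQ40 (by norm_num) (by norm_num)).trans hQ41 (by norm_num) (by norm_num)).trans hQ42 (by norm_num) (by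 norm_num)).trans hQ43 (by norm_num) (by norm_num)).trans hQ44 (by norm_num) (by norm_num)).trans hQ45 (by norm_num) (by norm_num)).trans hQ46 (by norm_num) (by norm_num)).trans hQ47 (by norm_num) (by norm_num)).trans hQ48 (by norm_num) (by norm_num)).trans hQ49 (by norm_num) (by norm_num)).trans hQ50 (by norm_num) (by norm_num)).trans hQ51 (by norm_num) (by norm_num)).trans hQ52 (by norm_num) (by norm_num)).trans hQ53 (by norm_num) (by norm_num)).trans hQ54 (by norm_num) (by norm_num)).trans hQ55 (by norm_num) (by norm_num)).trans hQ56 (by norm_num) (by norm_num)).trans hQ57 (by norm_num) (by norm_num)).trans hQ58 (by norm_num) (by norm_num)).trans hQ59 (by norm_num) (by norm_num)).trans hQ60 (by norm_num) (by norm_num)).trans hQ61 (by norm_num) (by norm_num)).trans hQ62 (by norm_num) (by norm_num)).trans hQ63 (by norm_num) (by norm_num)).trans hQ64 (by norm_num) (by norm_num)).trans hQ65 (by norm_num) (by norm_num)).trans hQ66 (by norm_num) (by norm_num)).trans hQ67 (by norm_num) (by norm_num)).trans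 hQ68 (by norm_num) (by norm_num)).trans hQ69 (by norm_num) (by norm_num)).trans hQ70 (by norm_num) (by norm_num)).trans hQ71 (by norm_num) (by norm_num)).trans hQ72 (by norm_num) (by norm_num)).trans hQ73 (by norm_num) (by norm_num)).trans hQ74 (by norm_num) (by norm_num)).trans hQ75 (by norm_num) (by norm_num)).trans hQ76 (by norm_num) (by norm_num)).trans hQ77 (by norm_num) (by norm_num)

end Vale.Agent.P355.H41.L5
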