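import Vale.Agent.P355.H41.L5.D
import Vale.Agent.P355.H41.L5.B0
import Vale.Agent.P355.H41.L5.B1
import Vale.Agent.P355.H41.L5.B2
import Vale.Agent.P355.H41.L5.B3
import Vale.Agent.P355.H41.L5.B4
import Vale.Agent.P355.H41.L5.B5
import Vale.Agent.P355.H41.L5.B6
import Vale.Agent.P355.H41.L5.B7
import Vale.Agent.P355.H41.L5.B8
import Vale.Agent.P355.H41.L5.B9
import Vale.Agent.P355.H41.L5.B10
import Vale.Agent.P355.H41.L5.B11
import Vale.Agent.P355.H41.L5.B12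
import Vale.Agent.P355.H41.L5.B13
import Vale.Agent.P355.H41.L5.B14
import Vale.Agent.P355.H41.L5.B15
import Vale.Agent.P355.H41.L5.B16
import Vale.Agent.P355.H41.L5.B17
import Vale.Agent.P355.H41.L5.B18
import Vale.Agent.P355.H41.L5.B19
import Vale.Agent.P355.H41.L5.B20
import Vale.Agent.P355.H41.L5.B21
import Vale.Agent.P355.H41.L5.B22
import Vale.Agent.P355.H41.L5.B23
import Vale.Agent.P355.H147.Acc3
import Vale.Agent.P355.H147.LR

namespace Vale.Agent.P355.H41.L5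

open Vale.Agent.P355 Vale.Agent.P355.H147 Vale.Agent.P355.H998.E Vale.Agent.P355.H41.F1 Vale.Agent.P355.H129

def fs : List LB := [f0, f1, f2, f3, f4, f5, f6, f7, f8, f9, f10, f11, f12, f13, f14, f15, f16, f17, f18, f19, f20, f21, f22, f23]

noncomputable def t : TyE := ⟨RcE 6 40, 240, 64, 83, 12, 62, 1152921504606846976, 136, BP, 46656, fs.map (LB.toBD 64 33554432 122), EL⟩

theorem bok : BOk 240 G.nu 122 83 12 1152921504606846976 64 62 (fs.map (LB.toBD 64 33554432 122)) :=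
  BOk.consL (BOk.consL (BOk.consL (BOk.consL (BOk.consL (BOk.consL (BOk.consL (BOk.consL (BOk.consL (BOk.consL (BOk.consL (BOk.consL (BOk.consL (BOk.consL (BOk.consL (BOk.consL (BOk.consL (BOk.consL (BOk.consL (BOk.consL (BOk.consL (BOk.consL (BOk.consL (BOk.consL (BOk.nil _ _ _ _ _ _ _ _) bk23 fk23) bk22 fk22) bk21 fk21) bk20 fk20) bk19 fk19) bk18 fk18) bk17 fk17) bk16 fk16) bk15 fk15) bk14 fk14) bk13 fk13) bk12 fk12) bk11 fk11) bk10 fk10) bk9 fk9) bk8 fk8) bk7 fk7) bk6 fk6) bk5 fk5) bk4 fk4) bk3 fk3) bk2 fk2) bk1 fk1) bk0 fk0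

theorem tok : t.Ok G.nu 122 :=
  ⟨bok, by decide +kernel, fun e => RcE_le 6 40 e⟩

end Vale.Agent.P355.H41.L5
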